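import Vale.Agent.N137.W

/-!
# Averages over balls and truncated maximal functions of functions in `W^{1,1}`
-/

open MeasureTheory Set Filter Topology Metric
open scoped ENNReal NNReal ContDiff Pointwise

namespace Vale.Agent.N137

open Vale.Agent.P137 Vale.Agent.P137.U

variable {d : ℕ}

/-- The volume of the unit ball. -/
noncomputable def om (d : ℕ) : ℝ := volume.real (ball (0 : E d) 1)

theorem om_pos : 0 < om d := tt_vol_pos

section Av

variable {W : Type*} [NormedAddCommGroup W] [NormedSpace ℝ W]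

/-- The average over a closed ball. -/
noncomputable def av (F : E d → W) (y : E d) (r : ℝ) : W := ⨍ z in closedBall y r, F z

theorem av_eq (F : E d → W) (y : E d) {r : ℝ} (hr : 0 ≤ r) :
    av F y r = (r ^ d * om d)⁻¹ • ∫ z in closedBall y r, F z := by
  rw [av, setAverage_eq, tt_real_closedBall y hr, om]

theorem vol_pos {r : ℝ} (hr : 0 < r) : 0 < r ^ d * om d := mul_pos (pow_pos hr _) om_pos

theorem av_unit (F : E d → W) (y : E d) {r : ℝ} (hr : 0 < r) :
    av F y r = ⨍ w in closedBall (0 : E d) 1, F (y + r • w) := by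
  rw [av_eq F y hr.le, setAverage_eq]
  have h1 : ∫ w in closedBall (0 : E d) 1, F (y + r • w) =
      (r ^ Module.finrank ℝ (E d))⁻¹ • ∫ w in r • closedBall (0 : E d) 1, F (y + w) :=
    Measure.setIntegral_comp_smul_of_pos volume (fun w => F (y + w)) _ hr
  have h2 : r • closedBall (0 : E d) 1 = closedBall (0 : E d) r := by
    rw [smul_closedBall r 0 zero_le_one, smul_zero, Real.norm_of_nonneg hr.le, mul_one]
  have h3 : ∫ w in closedBall (0 : E d) r, F (y + w) = ∫ z in closedBall y r, F z := by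
    have h := (measurePreserving_add_left (volume : Measure (E d)) y).setIntegral_preimage_emb
      (MeasurableEquiv.addLeft y).measurableEmbedding F (closedBall y r)
    have h4 : (fun x => y + x) ⁻¹' closedBall y r = closedBall (0 : E d) r := by
      ext w
      simp only [preimage_add_closedBall, sub_self, mem_closedBall, dist_eq_norm, sub_zero]
    rw [h4] at h
    exact h
  rw [h1, h2, h3, tt_real_closedBall _ zero_le_one, finrank_euclideanSpace_fin, smul_smul, om,
    one_pow, one_mul, mul_inv, mul_comm]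

theorem av_norm_le_on {F : E d → W} {y : E d} {η r : ℝ} (hη : 0 < η) (hr : η ≤ r) {A : ℝ}
    (hA : ∫ z in closedBall y r, ‖F z‖ ≤ A) : ‖av F y r‖ ≤ (η ^ d * om d)⁻¹ * A := by
  have hr0 : 0 < r := hη.trans_le hr
  rw [av_eq F y hr0.le, norm_smul, norm_inv, Real.norm_of_nonneg (vol_pos hr0).le]
  refine mul_le_mul ?_ ((norm_integral_le_integral_norm _).trans hA) (norm_nonneg _)
    (inv_nonneg.2 (vol_pos hη).le)
  have := om_pos (d := d)
  exact inv_anti₀ (vol_pos hη) (by gcongr)

theorem av_norm_le {F : E d → W} (hF : Integrable F) (y : E d) {η r : ℝ} (hη : 0 < η)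
    (hr : η ≤ r) : ‖av F y r‖ ≤ (η ^ d * om d)⁻¹ * ∫ z, ‖F z‖ :=
  av_norm_le_on hη hr (setIntegral_le_integral hF.norm (ae_of_all _ fun _ => norm_nonneg _))

theorem av_add {F G : E d → W} {y : E d} {r : ℝ} (hF : IntegrableOn F (closedBall y r))
    (hG : IntegrableOn G (closedBall y r)) :
    av (fun z => F z + G z) y r = av F y r + av G y r := by
  simp only [av, setAverage_eq]
  rw [integral_add hF hG, smul_add]

theorem av_sub {F G : E d → W} {y : E d} {r : ℝ} (hF : IntegrableOn F (closedBall y r))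
    (hG : IntegrableOn G (closedBall y r)) :
    av (fun z => F z - G z) y r = av F y r - av G y r := by
  simp only [av, setAverage_eq]
  rw [integral_sub hF hG, smul_sub]

theorem av_dist {F G : E d → W} (hF : Integrable F) (hG : Integrable G) (y : E d) {η r : ℝ}
    (hη : 0 < η) (hr : η ≤ r) :
    ‖av F y r - av G y r‖ ≤ (η ^ d * om d)⁻¹ * ∫ z, ‖F z - G z‖ := by
  rw [← av_sub hF.integrableOn hG.integrableOn]
  exact av_norm_le (isub hF hG) y hη hr

theorem av_congr {F G : E d → W} {y : E d} {r : ℝ} (h : ∀ z ∈ closedBall y r, F z = G z) :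
    av F y r = av G y r := by
  simp only [av, setAverage_eq]
  rw [setIntegral_congr_fun measurableSet_closedBall h]

theorem av_contAt {F : E d → W} (hF : Integrable F) {p : E d × ℝ} (hp : 0 < p.2) :
    ContinuousAt (fun q : E d × ℝ => av F q.1 q.2) p := by
  have hev : ∀ᶠ q : E d × ℝ in 𝓝 p, 0 < q.2 := continuousAt_const.eventually_lt continuousAt_snd hp
  have h1 : ContinuousAt (fun q : E d × ℝ => ∫ z, (closedBall q.1 q.2).indicator F z) p := by
    refine continuousAt_of_dominated (bound := fun z => ‖F z‖)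
      (Eventually.of_forall fun q => hF.1.indicator measurableSet_closedBall)
      (Eventually.of_forall fun q => ae_of_all _ fun z => norm_indicator_le_norm_self _ _)
      hF.norm ?_
    have h4 : volume (sphere p.1 p.2) = 0 := Measure.addHaar_sphere_of_ne_zero volume _ hp.ne'
    filter_upwards [measure_eq_zero_iff_ae_notMem.1 h4] with z hz
    have hc : ContinuousAt (fun q : E d × ℝ => dist z q.1) p := by fun_prop
    rcases lt_or_gt_of_ne (show dist z p.1 ≠ p.2 from hz) with h | h
    · refine (continuousAt_const (y := F z)).congr ?_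
      filter_upwards [hc.eventually_lt continuousAt_snd h] with q hq
      exact (indicator_of_mem (show z ∈ closedBall q.1 q.2 from hq.le) F).symm
    · refine (continuousAt_const (y := (0 : W))).congr ?_
      filter_upwards [continuousAt_snd.eventually_lt hc h] with q hq
      exact (indicator_of_notMem (show z ∉ closedBall q.1 q.2 from not_le.2 hq) F).symm
  have h2 : ContinuousAt (fun q : E d × ℝ => (q.2 ^ d * om d)⁻¹) p :=
    ContinuousAt.inv₀ (by fun_prop) (vol_pos hp).ne'
  refine (h2.smul h1).congr ?_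
  filter_upwards [hev] with q hq
  rw [av_eq F _ hq.le, ← integral_indicator measurableSet_closedBall]
  rfl

end Av

theorem av_mono {F G : E d → ℝ} {y : E d} {r : ℝ} (hF : IntegrableOn F (closedBall y r))
    (hG : IntegrableOn G (closedBall y r)) (h : ∀ z ∈ closedBall y r, F z ≤ G z) :
    av F y r ≤ av G y r := by
  simp only [av, setAverage_eq, smul_eq_mul]
  exact mul_le_mul_of_nonneg_left (setIntegral_mono_on hF hG measurableSet_closedBall h)
    (inv_nonneg.2 measureReal_nonneg)

theorem av_nonneg {F : E d → ℝ} (h : ∀ z, 0 ≤ F z) (y : E d) (r : ℝ) : 0 ≤ av F y r := by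
  simp only [av, setAverage_eq, smul_eq_mul]
  exact mul_nonneg (inv_nonneg.2 measureReal_nonneg) (integral_nonneg h)

theorem avg_eq_av (f : E d → ℝ) (y : E d) {r : ℝ} (hr : 0 < r) : avg f y r = av f y r :=
  (av_unit f y hr).symm

/-- The affine function with value `b` at `y` and slope `a`. -/
noncomputable def aff (y : E d) (b : ℝ) (a : E d) (z : E d) : ℝ := b + inner ℝ a (z - y)

theorem aff_contDiff (y : E d) (b : ℝ) (a : E d) : ContDiff ℝ ∞ (aff y b a) :=
  contDiff_const.add (contDiff_const.inner ℝ (contDiff_id.sub contDiff_const))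

theorem aff_hasGrad (y : E d) (b : ℝ) (a z : E d) : HasGradientAt (aff y b a) a z := by
  have h := ((InnerProductSpace.toDual ℝ (E d) a).hasFDerivAt (x := z - y)).comp z
    ((hasFDerivAt_id z).sub_const y)
  rw [ContinuousLinearMap.comp_id] at h
  exact h.const_add b

theorem aff_sub (y : E d) (b : ℝ) (a z w : E d) :
    aff y b a z - aff y b a w = inner ℝ a (z - w) := by
  simp only [aff, inner_sub_right]
  ring

theorem aff_abs (y : E d) (b : ℝ) (a z w : E d) :
    |aff y b a z - aff y b a w| ≤ ‖a‖ * ‖z - w‖ := by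
  rw [aff_sub]
  exact abs_real_inner_le_norm _ _

theorem aff_intOn (y : E d) (b : ℝ) (a x : E d) (r : ℝ) :
    IntegrableOn (aff y b a) (closedBall x r) :=
  (aff_contDiff y b a).continuous.continuousOn.integrableOn_compact (isCompact_closedBall _ _)

theorem av_aff (y : E d) (b : ℝ) (a x : E d) {r : ℝ} (hr : 0 < r) :
    av (aff y b a) x r = aff y b a x := by
  rw [av_unit _ _ hr]
  have h1 : ∀ w : E d, aff y b a (x + r • w) = aff y b a x + r * inner ℝ a w := by
    intro w
    have := aff_sub y b a (x + r • w) x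
    rw [add_sub_cancel_left, inner_smul_right] at this
    linarith
  have h2 : ∫ w in closedBall (0 : E d) 1, inner ℝ a w = 0 := by
    have h3 := integral_neg_eq_self
      (fun w : E d => (closedBall (0 : E d) 1).indicator (fun w => inner ℝ a w) w) volume
    have h4 : ∀ w : E d, (closedBall (0 : E d) 1).indicator (fun w => inner ℝ a w) (-w) =
        -(closedBall (0 : E d) 1).indicator (fun w => inner ℝ a w) w := by
      intro w
      by_cases hw : w ∈ closedBall (0 : E d) 1
      · rw [indicator_of_mem hw, indicator_of_mem (by simpa using hw), inner_neg_right]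
      · rw [indicator_of_notMem hw, indicator_of_notMem (by simpa using hw), neg_zero]
    simp only [h4, integral_neg, integral_indicator measurableSet_closedBall] at h3
    linarith
  have hi : IntegrableOn (fun w : E d => r * inner ℝ a w) (closedBall (0 : E d) 1) :=
    (by fun_prop : Continuous fun w : E d => r * inner ℝ a w).continuousOn.integrableOn_compact
      (isCompact_closedBall _ _)
  simp only [h1, setAverage_eq]
  have hi0 : IntegrableOn (fun _ : E d => aff y b a x) (closedBall (0 : E d) 1) :=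
    integrableOn_const measure_closedBall_lt_top.ne
  rw [integral_add hi0 hi, integral_const_mul, h2,
    setIntegral_const, tt_real_closedBall _ zero_le_one]
  have := tt_vol_pos (d := d)
  simp only [smul_eq_mul]
  field_simp
  ring

theorem av_const (b : ℝ) (x : E d) {r : ℝ} (hr : 0 < r) : av (fun _ => b) x r = b := by
  have h := av_aff (0 : E d) b 0 x hr
  have h2 : aff (0 : E d) b 0 = fun _ => b := funext fun z => by simp [aff]
  rw [h2] at h
  exact h

/-- Averages of functions in `W^{1,1}` are differentiable in the centre. -/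
theorem W11.av_hasGrad {f : E d → ℝ} {g : E d → E d} (h : W11 f g) {r : ℝ} (hr : 0 < r)
    (y : E d) : HasGradientAt (fun y => av f y r) (av g y r) y := by
  obtain ⟨φ, s1, s2, s3, s4⟩ := h.exists_seq
  have hW : ∀ n, W11 (φ n) (gradient (φ n)) := fun n => W11.of_smooth (s1 n) (s2 n)
  have hc := tendsto_geo.const_mul (r ^ d * om d)⁻¹
  rw [mul_zero] at hc
  have hi : 0 ≤ (r ^ d * om d)⁻¹ := inv_nonneg.2 (vol_pos hr).le
  refine hasFDerivAt_of_tendstoUniformly (l := atTop) (f := fun n y => av (φ n) y r)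
    (f' := fun n y => InnerProductSpace.toDual ℝ (E d) (av (gradient (φ n)) y r))
    (g' := fun y => InnerProductSpace.toDual ℝ (E d) (av g y r)) ?_
    (fun n y => ?_) (fun y => ?_) y
  · rw [Metric.tendstoUniformly_iff]
    intro ε hε
    filter_upwards [hc.eventually_lt_const hε] with n hn y
    rw [dist_comm, LinearIsometryEquiv.dist_map, dist_eq_norm]
    exact ((av_dist (hW n).gint h.gint y hr le_rfl).trans
      (mul_le_mul_of_nonneg_left (s4 n) hi)).trans_lt hn
  · have h1 := avg_hasFDerivAt ((s1 n).of_le (by simp)) (s2 n) r y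
    rw [← av_unit (fderiv ℝ (φ n)) y hr] at h1
    have h2 : HasFDerivAt (fun z => avg (φ n) (y + (z - y)) r) (av (fderiv ℝ (φ n)) y r) y := by
      have h3 := HasFDerivAt.comp (f := fun z => z - y) y (by simpa using h1 :
        HasFDerivAt (fun h => avg (φ n) (y + h) r) (av (fderiv ℝ (φ n)) y r) (y - y))
        ((hasFDerivAt_id y).sub_const y)
      rw [ContinuousLinearMap.comp_id] at h3
      exact h3
    have h4 : av (fderiv ℝ (φ n)) y r =
        InnerProductSpace.toDual ℝ (E d) (av (gradient (φ n)) y r) := by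
      ext v
      have hi1 : IntegrableOn (fderiv ℝ (φ n)) (closedBall y r) :=
        ((s1 n).continuous_fderiv (by simp)).continuousOn.integrableOn_compact
          (isCompact_closedBall _ _)
      rw [InnerProductSpace.toDual_apply_apply, av, av, setAverage_eq, setAverage_eq,
        _root_.smul_apply, ContinuousLinearMap.integral_apply hi1,
        real_inner_smul_left, real_inner_comm, ← integral_inner (hW n).gint.integrableOn,
        smul_eq_mul]
      congr 2
      funext z
      rw [real_inner_comm, gradient, InnerProductSpace.toDual_symm_apply]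
    rw [← h4]
    simpa only [add_sub_cancel, avg_eq_av _ _ hr] using h2
  · rw [tendsto_iff_norm_sub_tendsto_zero]
    exact squeeze_zero (fun _ => norm_nonneg _) (fun n => (av_dist (hW n).int h.int y hr
      le_rfl).trans (mul_le_mul_of_nonneg_left (s3 n) hi)) hc

theorem W11.av_lip {f : E d → ℝ} {g : E d → E d} (h : W11 f g) {η r : ℝ} (hη : 0 < η)
    (hr : η ≤ r) (y z : E d) :
    av f y r - av f z r ≤ (η ^ d * om d)⁻¹ * (∫ z, ‖g z‖) * ‖y - z‖ := by
  have h1 := fun y => (h.av_hasGrad (hη.trans_le hr) y).hasFDerivAt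
  refine (le_abs_self _).trans ?_
  refine Convex.norm_image_sub_le_of_norm_hasFDerivWithin_le (𝕜 := ℝ) (s := univ)
    (fun y _ => (h1 y).hasFDerivWithinAt) (fun y _ => ?_) convex_univ (mem_univ _) (mem_univ _)
  rw [LinearIsometryEquiv.norm_map]
  exact av_norm_le h.gint y hη hr

/-- Admissible (shift, radius) pairs with radius in `[η, R]`. -/
def KK (d : ℕ) (κ η R : ℝ) : Set (E d × ℝ) := {p | η ≤ p.2 ∧ p.2 ≤ R ∧ ‖p.1‖ ≤ κ * p.2}

theorem KK_compact {κ η R : ℝ} (hκ : 0 ≤ κ) : IsCompact (KK d κ η R) := by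
  refine ((isCompact_closedBall (0 : E d) (κ * R)).prod (isCompact_Icc (a := η) (b := R))
    ).of_isClosed_subset ?_ ?_
  · exact (isClosed_le continuous_const continuous_snd).inter
      ((isClosed_le continuous_snd continuous_const).inter
        (isClosed_le continuous_fst.norm (continuous_const.mul continuous_snd)))
  · rintro p ⟨h1, h2, h3⟩
    exact ⟨mem_closedBall_zero_iff.2 (h3.trans (mul_le_mul_of_nonneg_left h2 hκ)), h1, h2⟩

theorem KK_mem {κ η R r : ℝ} (hκ : 0 ≤ κ) (hη : 0 < η) (h1 : η ≤ r) (h2 : r ≤ R) :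
    ((0 : E d), r) ∈ KK d κ η R :=
  ⟨h1, h2, by simpa using mul_nonneg hκ (hη.le.trans h1)⟩

/-- The truncated maximal function (without modulus). -/
noncomputable def mx (κ : ℝ) (f : E d → ℝ) (η R : ℝ) (x : E d) : ℝ :=
  sSup ((fun p : E d × ℝ => av f (x + p.1) p.2) '' KK d κ η R)

theorem av_contOn {W : Type*} [NormedAddCommGroup W] [NormedSpace ℝ W] {F : E d → W}
    (hF : Integrable F) {κ η R : ℝ} (hη : 0 < η) (x : E d) :
    ContinuousOn (fun p : E d × ℝ => av F (x + p.1) p.2) (KK d κ η R) := by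
  intro p hp
  have h1 : ContinuousAt (fun p : E d × ℝ => (x + p.1, p.2)) p := by fun_prop
  exact ((av_contAt hF (p := (x + p.1, p.2)) (hη.trans_le hp.1)).comp_of_eq h1 rfl
    ).continuousWithinAt

variable {κ η R : ℝ} {f : E d → ℝ} {g : E d → E d}

theorem av_le_mx (hf : Integrable f) (hκ : 0 ≤ κ) (hη : 0 < η) (x : E d) {p : E d × ℝ}
    (hp : p ∈ KK d κ η R) : av f (x + p.1) p.2 ≤ mx κ f η R x :=
  le_csSup ((KK_compact hκ).bddAbove_image (av_contOn hf hη x)) (mem_image_of_mem _ hp)

theorem mx_attained (hf : Integrable f) (hκ : 0 ≤ κ) (hη : 0 < η) (hR : η ≤ R) (x : E d) :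
    ∃ p ∈ KK d κ η R, av f (x + p.1) p.2 = mx κ f η R x := by
  obtain ⟨p, hp, h1, -⟩ := (KK_compact hκ).exists_sSup_image_eq_and_ge
    ⟨_, KK_mem hκ hη le_rfl hR⟩ (av_contOn hf hη x)
  exact ⟨p, hp, h1.symm⟩

theorem mx_lip (h : W11 f g) (hκ : 0 ≤ κ) (hη : 0 < η) (hR : η ≤ R) :
    ∃ L : ℝ≥0, LipschitzWith L (mx κ f η R) := by
  have h0 : 0 ≤ (η ^ d * om d)⁻¹ * ∫ z, ‖g z‖ :=
    mul_nonneg (inv_nonneg.2 (vol_pos hη).le) (integral_nonneg fun _ => norm_nonneg _)
  refine ⟨⟨_, h0⟩, LipschitzWith.of_le_add_mul _ fun x y => ?_⟩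
  obtain ⟨p, hp, h1⟩ := mx_attained h.int hκ hη hR x
  have h2 := av_le_mx h.int hκ hη y hp
  have h3 := h.av_lip hη hp.1 (x + p.1) (y + p.1)
  rw [add_sub_add_right_eq_sub] at h3
  rw [dist_eq_norm]
  change _ ≤ _ + (η ^ d * om d)⁻¹ * (∫ z, ‖g z‖) * ‖x - y‖
  linarith

theorem grad_eq_of_le {u v : E d → ℝ} {x : E d} (hle : ∀ᶠ z in 𝓝 x, v z ≤ u z) (hx : u x ≤ v x)
    (hu : DifferentiableAt ℝ u x) (hv : DifferentiableAt ℝ v x) :
    gradient u x = gradient v x := by
  have hmin : IsLocalMin (fun z => u z - v z) x := by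
    filter_upwards [hle] with z hz
    linarith
  have h := hmin.fderiv_eq_zero
  rw [fderiv_fun_sub hu hv] at h
  unfold gradient
  rw [sub_eq_zero.mp h]

theorem grad_mx (h : W11 f g) (hκ : 0 ≤ κ) (hη : 0 < η) {x : E d} {p : E d × ℝ}
    (hp : p ∈ KK d κ η R) (hmax : mx κ f η R x ≤ av f (x + p.1) p.2)
    (hx : DifferentiableAt ℝ (mx κ f η R) x) : gradient (mx κ f η R) x = av g (x + p.1) p.2 := by
  have h1 : HasGradientAt (fun z => av f (z + p.1) p.2) (av g (x + p.1) p.2) x := by
    have h2 := (h.av_hasGrad (hη.trans_le hp.1) (x + p.1)).hasFDerivAt.comp x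
      ((hasFDerivAt_id x).add_const p.1)
    rw [ContinuousLinearMap.comp_id] at h2
    exact h2
  rw [grad_eq_of_le (Eventually.of_forall fun z => av_le_mx h.int hκ hη z hp) hmax hx
    h1.differentiableAt, h1.gradient]

/-- Stability of a quantity that is constant on the maximisers. -/
theorem stab {X Y : Type*} [TopologicalSpace X] [NormedAddCommGroup Y] {K : Set X}
    (hK : IsCompact K) {a : X → ℝ} {b : X → Y} (ha : ContinuousOn a K) (hb : ContinuousOn b K)
    {w : Y} (h : ∀ p ∈ K, (∀ q ∈ K, a q ≤ a p) → b p = w) {ε : ℝ} (hε : 0 < ε) :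
    ∃ τ > 0, ∀ p ∈ K, (∀ q ∈ K, a q ≤ a p + τ) → ‖b p - w‖ ≤ ε := by
  let K' := K ∩ (fun p => ‖b p - w‖) ⁻¹' Ici ε
  have hK' : IsCompact K' := by
    have hc : ContinuousOn (fun p => ‖b p - w‖) K := (hb.sub continuousOn_const).norm
    obtain ⟨t, ht, hte⟩ := continuousOn_iff_isClosed.1 hc (Ici ε) isClosed_Ici
    have : K' = K ∩ t := by
      simp only [K']
      rw [inter_comm, hte, inter_comm]
    rw [this]
    exact hK.inter_right ht
  rcases K'.eq_empty_or_nonempty with he | hne
  · refine ⟨1, one_pos, fun p hp _ => ?_⟩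
    by_contra hc
    exact (he ▸ (⟨hp, (not_le.1 hc).le⟩ : p ∈ K') : p ∈ (∅ : Set X))
  · obtain ⟨p0, hp0, hmax⟩ := hK'.exists_isMaxOn hne (ha.mono inter_subset_left)
    have h1 : ∃ q ∈ K, a p0 < a q := by
      by_contra hc
      push Not at hc
      have h2 : ε ≤ ‖b p0 - w‖ := hp0.2
      rw [h p0 hp0.1 hc, sub_self, norm_zero] at h2
      exact absurd h2 (not_le.2 hε)
    obtain ⟨q, hq, hlt⟩ := h1
    refine ⟨(a q - a p0) / 2, by linarith, fun p hp hn => ?_⟩
    by_contra hc
    have h3 : a p ≤ a p0 := hmax (⟨hp, (not_le.1 hc).le⟩ : p ∈ K')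
    have h4 := hn q hq
    linarith

/-- The global estimate for truncated maximal functions of smooth functions. -/
def Core (d : ℕ) (κ : ℝ) (C : ℝ≥0) : Prop := ∀ φ : E d → ℝ, ContDiff ℝ ∞ φ →
  HasCompactSupport φ → ∀ η : ℝ, 0 < η → ∀ K : ℕ,
    ∫⁻ x, ‖gradient (mx κ φ η (2 * 2 ^ K * η)) x‖ₑ ≤ C * ∫⁻ x, ‖gradient φ x‖ₑ

theorem le_two_pow {η : ℝ} (hη : 0 < η) (K : ℕ) : η ≤ 2 * 2 ^ K * η := by
  have : (1 : ℝ) ≤ 2 ^ K := one_le_pow₀ (by norm_num)
  nlinarith

/-- The estimate for truncated maximal functions on `W^{1,1}`. -/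
theorem Core.w11 {C : ℝ≥0} (hC : Core d κ C) (hκ : 0 ≤ κ) (h : W11 f g) (hη : 0 < η) (K : ℕ) :
    ∫⁻ x, ‖gradient (mx κ f η (2 * 2 ^ K * η)) x‖ₑ ≤ C * ∫⁻ x, ‖g x‖ₑ := by
  obtain ⟨φ, s1, s2, s3, s4⟩ := h.exists_seq
  have hW : ∀ n, W11 (φ n) (gradient (φ n)) := fun n => W11.of_smooth (s1 n) (s2 n)
  have hR := le_two_pow hη K
  set R := 2 * 2 ^ K * η with hRdef
  set c := (η ^ d * om d)⁻¹ with hcdef
  have hi : 0 ≤ c := inv_nonneg.2 (vol_pos hη).le
  have hc := tendsto_geo.const_mul c
  rw [mul_zero] at hc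
  have hae : ∀ᵐ x, Tendsto (fun n => gradient (mx κ (φ n) η R) x) atTop
      (𝓝 (gradient (mx κ f η R) x)) := by
    have h1 : ∀ n, ∀ᵐ x, DifferentiableAt ℝ (mx κ (φ n) η R) x := fun n => by
      obtain ⟨L, hL⟩ := mx_lip (hW n) hκ hη hR
      exact hL.ae_differentiableAt
    obtain ⟨L, hL⟩ := mx_lip h hκ hη hR
    filter_upwards [ae_all_iff.2 h1, hL.ae_differentiableAt (μ := volume)] with x hx hx0
    rw [Metric.tendsto_atTop]
    intro ε hε
    obtain ⟨τ, hτ, hst⟩ := stab (KK_compact (η := η) (R := R) hκ) (av_contOn h.int hη x)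
      (av_contOn h.gint hη x) (w := gradient (mx κ f η R) x) (fun p hp hm => by
        obtain ⟨q, hq, hq1⟩ := mx_attained h.int hκ hη hR x
        exact (grad_mx h hκ hη hp (hq1 ▸ hm q hq) hx0).symm) (half_pos hε)
    obtain ⟨N, hN⟩ := eventually_atTop.1
      ((hc.eventually_lt_const (half_pos hτ)).and (hc.eventually_lt_const (half_pos hε)))
    refine ⟨N, fun n hn => ?_⟩
    obtain ⟨p, hp, hp1⟩ := mx_attained (hW n).int hκ hη hR x
    have e1 : ∀ q ∈ KK d κ η R, |av (φ n) (x + q.1) q.2 - av f (x + q.1) q.2| ≤ c * 2⁻¹ ^ n :=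
      fun q hq => (av_dist (hW n).int h.int _ hη hq.1).trans (mul_le_mul_of_nonneg_left (s3 n) hi)
    have e2 := hst p hp fun q hq => by
      have a1 := abs_le.1 (e1 q hq)
      have a2 := abs_le.1 (e1 p hp)
      have a3 := av_le_mx (hW n).int hκ hη x hq
      linarith [(hN n hn).1, a1.1, a2.2]
    have e3 := (av_dist (hW n).gint h.gint (x + p.1) hη hp.1).trans
      (mul_le_mul_of_nonneg_left (s4 n) hi)
    rw [grad_mx (hW n) hκ hη hp hp1.ge (hx n), dist_eq_norm]
    have e4 := norm_sub_le_norm_sub_add_norm_sub (av (gradient (φ n)) (x + p.1) p.2)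
      (av g (x + p.1) p.2) (gradient (mx κ f η R) x)
    linarith [(hN n hn).2]
  have h2 : ∀ n, ∫⁻ x, ‖gradient (mx κ (φ n) η R) x‖ₑ ≤
      C * ((∫⁻ x, ‖g x‖ₑ) + ENNReal.ofReal (2⁻¹ ^ n)) := by
    intro n
    refine (hC (φ n) (s1 n) (s2 n) η hη K).trans (mul_le_mul_right ?_ _)
    have h3 := fa_set_grad (φ := φ n) (b := ENNReal.ofReal (2⁻¹ ^ n)) h.gint (by
      rw [← ofReal_integral_norm_eq_lintegral_enorm (isub h.gint (hW n).gint)]
      refine ENNReal.ofReal_le_ofReal ?_
      simpa only [norm_sub_rev (g _)] using s4 n) univ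
    simpa only [Measure.restrict_univ, fa_enorm_gradient] using h3
  have h4 : Tendsto (fun n : ℕ => (C : ℝ≥0∞) * ((∫⁻ x, ‖g x‖ₑ) + ENNReal.ofReal (2⁻¹ ^ n))) atTop
      (𝓝 (C * ∫⁻ x, ‖g x‖ₑ)) := by
    have h5 := (ENNReal.tendsto_ofReal tendsto_geo).const_add (∫⁻ x, ‖g x‖ₑ)
    rw [ENNReal.ofReal_zero, add_zero] at h5
    exact ENNReal.Tendsto.const_mul h5 (Or.inr ENNReal.coe_ne_top)
  calc ∫⁻ x, ‖gradient (mx κ f η R) x‖ₑ
      = ∫⁻ x, liminf (fun n => ‖gradient (mx κ (φ n) η R) x‖ₑ) atTop := by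
        refine lintegral_congr_ae ?_
        filter_upwards [hae] with x hx
        exact hx.enorm.liminf_eq.symm
    _ ≤ liminf (fun n => ∫⁻ x, ‖gradient (mx κ (φ n) η R) x‖ₑ) atTop :=
        lintegral_liminf_le fun n => (measurable_grad _).enorm
    _ ≤ liminf (fun n : ℕ => (C : ℝ≥0∞) * ((∫⁻ x, ‖g x‖ₑ) + ENNReal.ofReal (2⁻¹ ^ n))) atTop :=
        liminf_le_liminf (Eventually.of_forall h2)
    _ = _ := h4.liminf_eq

end Vale.Agent.N137
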