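import Vale.Agent.P137.StatementC
import Vale.Agent.P137.StatementU
import Mathlib.Data.Real.Sign

/-! Definitions for the statement on the continuity of the gradient of the maximal function. -/

open MeasureTheory Metric Filter Topology Vale.Agent.P137
open scoped ENNReal

namespace Vale.Agent.N137

variable {V : Type} [NormedAddCommGroup V] [InnerProductSpace ℝ V] [MeasureSpace V]

/-- `f ∈ W^{1,1}` has the weak gradient `g`, and `G` is a weak gradient of `M f`. -/
def GradData (M : (V → ℝ) → V → ℝ≥0∞) (f : V → ℝ) (g G : V → V) : Prop :=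
  Integrable f ∧ Integrable g ∧ WeakGrad f g ∧ WeakGrad (fun x => (M f x).toReal) G

/-- `f ↦ ∇ M f` is continuous from `W^{1,1}` to `L^1`. -/
def GradContinuous (M : (V → ℝ) → V → ℝ≥0∞) : Prop :=
  ∀ (fn : ℕ → V → ℝ) (gn Gn : ℕ → V → V) (f : V → ℝ) (g G : V → V),
    (∀ n, GradData M (fn n) (gn n) (Gn n)) → GradData M f g G →
    Tendsto (fun n => ∫⁻ x, ‖fn n x - f x‖ₑ) atTop (𝓝 0) →
    Tendsto (fun n => ∫⁻ x, ‖gn n x - g x‖ₑ) atTop (𝓝 0) →
    Tendsto (fun n => ∫⁻ x, ‖Gn n x - G x‖ₑ) atTop (𝓝 0)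

/-- At almost every point `∇ M f` is `∇|f| = sign(f) ∇f` if `M f = |f|` there, and the average of
`∇|f|` over every ball `B(y, r)` with `|x - y| ≤ κ r` on which the average of `|f|` is `M f x`. -/
def GradFormula (M : (V → ℝ) → V → ℝ≥0∞) (κ : ℝ) : Prop :=
  ∀ (f : V → ℝ) (g G : V → V), GradData M f g G →
    ∀ᵐ x, (M f x = ‖f x‖ₑ → G x = Real.sign (f x) • g x) ∧
      ∀ y r, 0 < r → dist x y ≤ κ * r →
        M f x = (∫⁻ z in ball y r, ‖f z‖ₑ) / volume (ball y r) →
        G x = ⨍ z in ball y r, Real.sign (f z) • g z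

end Vale.Agent.N137
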