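import Vale.Agent.N137.Sm

/-!
# Small radii: the global estimate
-/

open MeasureTheory Set Filter Topology Metric
open scoped ENNReal NNReal ContDiff

namespace Vale.Agent.N137

open Vale.Agent.P137 Vale.Agent.P137.U

variable {d : ℕ} {κ δ : ℝ} {f : E d → ℝ} {g G : E d → E d} {x : E d}

theorem lint_ball (Φ : E d → E d → ℝ≥0∞)
    (hΦ : AEMeasurable (fun p : E d × E d => Φ p.1 (p.1 + p.2)) (volume.prod volume)) (ρ : ℝ) :
    ∫⁻ y, ∫⁻ z in closedBall y ρ, Φ y z = ∫⁻ h in closedBall (0 : E d) ρ, ∫⁻ y, Φ y (y + h) := by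
  have h1 : ∀ y, ∫⁻ z in closedBall y ρ, Φ y z =
      ∫⁻ h in closedBall (0 : E d) ρ, Φ y (y + h) := by
    intro y
    rw [← (measurePreserving_add_left (volume : Measure (E d)) y).setLIntegral_comp_preimage_emb
      (MeasurableEquiv.addLeft y).measurableEmbedding]
    congr 2
    ext w
    simp only [preimage_add_closedBall, sub_self, mem_closedBall, dist_eq_norm, sub_zero]
  simp only [h1]
  refine lintegral_lintegral_swap (f := fun y h => Φ y (y + h)) (hΦ.mono_ac ?_)
  exact Measure.AbsolutelyContinuous.rfl.prod Measure.absolutelyContinuous_restrict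

theorem vol_cb (y : E d) {r : ℝ} (hr : 0 ≤ r) :
    volume (closedBall y r) = ENNReal.ofReal (r ^ d * om d) := by
  rw [om, ← tt_real_closedBall y hr, Measure.real,
    ENNReal.ofReal_toReal measure_closedBall_lt_top.ne]

theorem TT_mono (hκ : 0 ≤ κ) (hf : Integrable f) (hδ : 0 < δ) : Monotone (TT κ f δ) := by
  refine monotone_nat_of_le_succ fun n x hx => le_trans hx (ENNReal.ofReal_le_ofReal ?_)
  obtain ⟨p, hp, hp1⟩ := mx_attained hf hκ (lo_pos hδ n) (lo_le hδ n) x
  rw [← hp1]
  refine av_le_mx hf hκ (lo_pos hδ _) x ⟨le_trans ?_ hp.1, hp.2⟩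
  unfold lo
  exact div_le_div_of_nonneg_left hδ.le (by positivity) (by gcongr <;> norm_num)

theorem lam_nonneg (hδ : 0 < δ) (y : E d) (b : ℝ) (a : E d) : 0 ≤ lam f g δ y b a :=
  add_nonneg (integral_nonneg fun _ => norm_nonneg _)
    (mul_nonneg (inv_nonneg.2 hδ.le) (integral_nonneg fun _ => abs_nonneg _))

/-- Second order control of a test function. -/
theorem exists_taylor {φ : E d → ℝ} (h1 : ContDiff ℝ ∞ φ) (h2 : HasCompactSupport φ) :
    ∃ (L : ℝ) (K : Set (E d)), 0 ≤ L ∧ IsCompact K ∧ ∀ r, r ≤ 9 → ∀ y, ∀ z ∈ closedBall y r,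
      ‖gradient φ z - gradient φ y‖ ≤ K.indicator (fun _ => L * r) y ∧
      |φ z - φ y - inner ℝ (gradient φ y) (z - y)| ≤ K.indicator (fun _ => L * r * r) y := by
  obtain ⟨L, hL⟩ : ∃ L, LipschitzWith L (fderiv ℝ φ) :=
    ContDiff.lipschitzWith_of_hasCompactSupport (h2.fderiv ℝ)
      (h1.fderiv_right (m := 1) (by norm_cast)) (by simp)
  obtain ⟨ρ, hρ⟩ := h2.isCompact.isBounded.subset_closedBall (0 : E d)
  have hz : ∀ z, ρ < dist z 0 → φ z = 0 := fun z hz => by
    by_contra hc
    exact absurd (hρ (subset_tsupport φ hc)) (not_le.2 hz)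
  refine ⟨L, closedBall 0 (ρ + 9), L.2, isCompact_closedBall _ _, fun r hr y z hz1 => ?_⟩
  by_cases hy : y ∈ closedBall (0 : E d) (ρ + 9)
  · rw [indicator_of_mem hy, indicator_of_mem hy]
    have h3 : ∀ w ∈ closedBall y r, ‖fderiv ℝ φ w - fderiv ℝ φ y‖ ≤ L * r := fun w hw =>
      (hL.norm_sub_le w y).trans (mul_le_mul_of_nonneg_left (by rwa [← dist_eq_norm]) L.2)
    constructor
    · unfold gradient
      rw [← map_sub, LinearIsometryEquiv.norm_map]
      exact h3 z hz1
    · have hr0 : 0 ≤ r := dist_nonneg.trans hz1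
      have h4 := (convex_closedBall y r).norm_image_sub_le_of_norm_fderiv_le' (𝕜 := ℝ) (f := φ)
        (fun w _ => h1.differentiable (by simp) w) h3 (mem_closedBall_self hr0) hz1
      rw [gradient, InnerProductSpace.toDual_symm_apply]
      exact h4.trans (mul_le_mul_of_nonneg_left (by rwa [← dist_eq_norm])
        (mul_nonneg L.2 hr0))
  · have h3 : ρ + 9 < dist y 0 := not_le.1 hy
    have h4 : ρ < dist z 0 := by
      have := dist_triangle y z 0
      rw [dist_comm y z] at this
      linarith [mem_closedBall.1 hz1]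
    have h5 : ρ < dist y 0 := by linarith
    rw [indicator_of_notMem hy, indicator_of_notMem hy, grad_zero_of hz h4, grad_zero_of hz h5,
      hz z h4, hz y h5]
    simp

theorem lint_lam {φ : E d → ℝ} (h1 : ContDiff ℝ ∞ φ) (h2 : HasCompactSupport φ) :
    ∃ A : ℝ, 0 ≤ A ∧ ∀ δ : ℝ, 0 < δ → δ ≤ 1 → ∀ (f : E d → ℝ) (g : E d → E d), W11 f g →
      ∫⁻ y, ENNReal.ofReal (lam f g δ y (f y) (gradient φ y)) ≤
        ENNReal.ofReal ((9 * δ) ^ d * om d) *
          ENNReal.ofReal (10 * (∫ z, ‖g z - gradient φ z‖) + A * δ) := by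
  obtain ⟨L, K, hL, hK, hT⟩ := exists_taylor h1 h2
  refine ⟨90 * L * volume.real K, by positivity, fun δ hδ hδ1 f g h => ?_⟩
  have hk := h.sub (W11.of_smooth h1 h2)
  set k : E d → ℝ := fun z => f z - φ z with hkdef
  set γ : E d → E d := fun z => g z - gradient φ z with hγ
  let Ψ : E d → E d → ℝ := fun y z =>
    ‖γ z‖ + δ⁻¹ * ‖k z - k y‖ + K.indicator (fun _ => 90 * L * δ) y
  have hI : 0 ≤ ∫ z, ‖γ z‖ := integral_nonneg fun _ => norm_nonneg _
  have s1 : ∀ y, ENNReal.ofReal (lam f g δ y (f y) (gradient φ y)) ≤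
      ∫⁻ z in closedBall y (9 * δ), ENNReal.ofReal (Ψ y z) := by
    intro y
    have c0 : ∀ c : ℝ, IntegrableOn (fun _ : E d => c) (closedBall y (9 * δ)) := fun c =>
      integrableOn_const measure_closedBall_lt_top.ne
    have i1 : IntegrableOn (fun z => ‖g z - gradient φ y‖) (closedBall y (9 * δ)) :=
      (isub h.gint.integrableOn (integrableOn_const measure_closedBall_lt_top.ne)).norm
    have i2 : IntegrableOn (fun z => |f z - aff y (f y) (gradient φ y) z|)
        (closedBall y (9 * δ)) := (isub h.int.integrableOn (aff_intOn _ _ _ y _)).abs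
    have i3 : IntegrableOn (Ψ y) (closedBall y (9 * δ)) :=
      iadd (iadd hk.gint.norm.integrableOn
        ((isub hk.int.integrableOn (c0 _)).norm.const_mul _)) (c0 _)
    refine le_trans (ENNReal.ofReal_le_ofReal ?_) (ofReal_integral_eq_lintegral_ofReal i3
      (ae_of_all _ fun z => add_nonneg (by positivity)
        (indicator_nonneg (fun _ _ => by positivity) _))).le
    unfold lam
    rw [← integral_const_mul, ← integral_add i1 (i2.const_mul _)]
    refine setIntegral_mono_on (iadd i1 (i2.const_mul _)) i3 measurableSet_closedBall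
      fun z hz => ?_
    obtain ⟨t1, t2⟩ := hT (9 * δ) (by linarith) y z hz
    have e1 : ‖g z - gradient φ y‖ ≤ ‖γ z‖ + ‖gradient φ z - gradient φ y‖ :=
      norm_sub_le_norm_sub_add_norm_sub _ _ _
    have e2 : |f z - aff y (f y) (gradient φ y) z| ≤
        ‖k z - k y‖ + |φ z - φ y - inner ℝ (gradient φ y) (z - y)| := by
      refine le_trans (le_of_eq ?_) (abs_add_le _ _)
      congr 1
      simp only [aff, hkdef]
      ring
    have e3 := mul_le_mul_of_nonneg_left (e2.trans (add_le_add le_rfl t2)) (inv_nonneg.2 hδ.le)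
    have e4 : K.indicator (fun _ => L * (9 * δ)) y +
        δ⁻¹ * K.indicator (fun _ => L * (9 * δ) * (9 * δ)) y =
        K.indicator (fun _ => 90 * L * δ) y := by
      by_cases hy : y ∈ K
      · simp only [indicator_of_mem hy]
        field_simp
        ring
      · simp [indicator_of_notMem hy]
    simp only [Ψ]
    rw [mul_add] at e3
    linarith
  have qa := quasiMeasurePreserving_add (volume : Measure (E d)) (volume : Measure (E d))
  have m1 : AEMeasurable (fun p : E d × E d => ENNReal.ofReal (Ψ p.1 (p.1 + p.2)))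
      (volume.prod volume) := by
    refine AEMeasurable.ennreal_ofReal (AEStronglyMeasurable.aemeasurable ?_)
    refine (((hk.gint.1.comp_quasiMeasurePreserving qa).norm).add
      (((hk.int.1.comp_quasiMeasurePreserving qa).sub hk.int.1.comp_fst).norm.const_mul _)).add ?_
    exact (aestronglyMeasurable_const.indicator hK.measurableSet).comp_fst
  refine (lintegral_mono s1).trans ?_
  rw [lint_ball (fun y z => ENNReal.ofReal (Ψ y z)) m1, ← vol_cb (0 : E d) (by positivity),
    mul_comm (volume _), ← setLIntegral_const]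
  refine setLIntegral_mono' measurableSet_closedBall fun v hv => ?_
  have j1 : Integrable fun y => ‖γ (y + v)‖ := (hk.gint.comp_add_right v).norm
  have j2 : Integrable fun y => δ⁻¹ * ‖k (y + v) - k y‖ :=
    (isub (hk.int.comp_add_right v) hk.int).norm.const_mul _
  have j3 : Integrable (K.indicator fun _ : E d => 90 * L * δ) :=
    (integrable_indicator_iff hK.measurableSet).2 (integrableOn_const hK.measure_lt_top.ne)
  have j4 : Integrable fun y => Ψ y (y + v) := iadd (iadd j1 j2) j3
  rw [← ofReal_integral_eq_lintegral_ofReal j4 (ae_of_all _ fun z => add_nonneg (by positivity)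
        (indicator_nonneg (fun _ _ => by positivity) _))]
  refine ENNReal.ofReal_le_ofReal ?_
  simp only [Ψ]
  rw [integral_add (iadd j1 j2) j3, integral_add j1 j2, integral_const_mul,
    integral_add_right_eq_self (fun y => ‖γ y‖) v, integral_indicator hK.measurableSet,
    setIntegral_const, smul_eq_mul]
  have t3 := hk.translate v
  have t4 : ‖v‖ ≤ 9 * δ := mem_closedBall_zero_iff.1 hv
  have t5 : δ⁻¹ * ∫ y, ‖k (y + v) - k y‖ ≤ 9 * ∫ z, ‖γ z‖ := by
    rw [inv_mul_le_iff₀ hδ]
    nlinarith
  linarith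

/-- On the set where small radii suffice, the gradient of the maximal function is close in `L^1`
to the gradient of the function. -/
theorem small_global (hκ : 0 ≤ κ) (hκ1 : κ ≤ 1) {C : ℝ≥0} (hC : Core d κ C) {C1 : ℝ}
    (hC1 : 0 ≤ C1) (hLS : LS d κ C1) : ∃ C3 : ℝ, 0 ≤ C3 ∧ ∀ φ : E d → ℝ, ContDiff ℝ ∞ φ →
      HasCompactSupport φ → ∃ A : ℝ, 0 ≤ A ∧ ∀ δ : ℝ, 0 < δ → δ ≤ 1 →
        ∀ (f : E d → ℝ) (g G : E d → E d), Dat κ f g G → ∃ e : E d → ℝ, Integrable e ∧
          (∀ x, 0 ≤ e x) ∧ ∫ x, e x ≤ C3 * (∫ z, ‖g z - gradient φ z‖) + A * δ ∧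
          ∀ᵐ x, Sm κ f δ x → ‖G x - g x‖ ≤ e x := by
  refine ⟨(C1 + 1) * 18 ^ d * 10, by positivity, fun φ h1 h2 => ?_⟩
  obtain ⟨A, hA, hlam⟩ := lint_lam h1 h2
  refine ⟨(C1 + 1) * 18 ^ d * A, by positivity, fun δ hδ hδ1 f g G h => ?_⟩
  have hms := measurableSet_TT hκ h.w hδ
  have hi := (isub h.gi h.w.gint).norm
  have hI : 0 ≤ ∫ z, ‖g z - gradient φ z‖ := integral_nonneg fun _ => norm_nonneg _
  refine ⟨(⋃ n, TT κ f δ n).indicator fun x => ‖G x - g x‖,
    hi.indicator (MeasurableSet.iUnion hms),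
    fun x => indicator_nonneg (fun _ _ => norm_nonneg _) _, ?_, ?_⟩
  · have key : ∀ n, ∫⁻ x in TT κ f δ n, ‖G x - g x‖ₑ ≤ ENNReal.ofReal ((C1 + 1) * 18 ^ d *
        (10 * (∫ z, ‖g z - gradient φ z‖) + A * δ)) := by
      intro n
      obtain ⟨i1, -⟩ := hC.real hκ h.w hδ n
      let u : E d → ℝ≥0∞ := (TT κ f δ n).indicator fun x => ‖G x - g x‖ₑ
      have hu : AEMeasurable u := (isub h.gi h.w.gint).1.enorm.indicator (hms n)
      have s1 : ∀ y, ∫⁻ z in closedBall y (δ / 2), u z ≤
          ENNReal.ofReal (C1 + 1) * ENNReal.ofReal (lam f g δ y (f y) (gradient φ y)) := by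
        intro y
        have hset := (hms n).inter (measurableSet_ball (x := y) (ε := δ))
        have hfin : volume (TT κ f δ n ∩ ball y δ) ≠ ⊤ :=
          ((measure_mono inter_subset_right).trans_lt measure_ball_lt_top).ne
        have a1 := hLS f g h.w h.nn δ hδ n y (f y) (gradient φ y)
        have a2 : ∫ z in TT κ f δ n ∩ ball y δ, ‖g z - gradient φ y‖ ≤
            lam f g δ y (f y) (gradient φ y) := by
          refine le_trans (setIntegral_mono_set (isub h.w.gint.integrableOn
            (integrableOn_const measure_closedBall_lt_top.ne)).norm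
            (ae_of_all _ fun _ => norm_nonneg _) (LE.le.eventuallyLE (inter_subset_right.trans
              (ball_subset_closedBall.trans (closedBall_subset_closedBall
                (show δ ≤ 9 * δ by linarith)))))) (le_add_of_nonneg_right ?_)
          exact mul_nonneg (inv_nonneg.2 hδ.le) (integral_nonneg fun _ => abs_nonneg _)
        have a3 : ∫ z in TT κ f δ n ∩ ball y δ, ‖G z - g z‖ ≤
            (∫ z in TT κ f δ n ∩ ball y δ, ‖gradient (mx κ f (lo δ n) δ) z - gradient φ y‖) +
              ∫ z in TT κ f δ n ∩ ball y δ, ‖g z - gradient φ y‖ := by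
          have b1 := (isub i1.integrableOn (integrableOn_const (C := gradient φ y) hfin)).norm
          have b2 := (isub h.w.gint.integrableOn
            (integrableOn_const (C := gradient φ y) hfin)).norm
          rw [← integral_add b1 b2]
          refine integral_mono_ae hi.integrableOn (iadd b1 b2) ((ae_restrict_iff' hset).2 ?_)
          filter_upwards [h.eq_mx hκ (lo_pos hδ n) (lo_le hδ n), h.fin] with z hz hz0 hz1
          have b3 := mx_le_mm h.w.int hκ (lo_pos hδ n) (lo_le hδ n) hz0
          have b4 : mm κ f z ≤ mx κ f (lo δ n) δ z := by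
            refine ENNReal.toReal_le_of_le_ofReal ?_ hz1.1
            exact (av_nonneg h.nn _ _).trans (av_le_mx h.w.int hκ (lo_pos hδ n) z
              (KK_mem hκ (lo_pos hδ n) (lo_le hδ n) le_rfl))
          rw [hz.2 (le_antisymm b4 b3), norm_sub_rev (g z)]
          exact norm_sub_le_norm_sub_add_norm_sub _ _ _
        rw [← ENNReal.ofReal_mul (by positivity), lintegral_indicator (hms n),
          Measure.restrict_restrict (hms n)]
        refine (lintegral_mono_set (inter_subset_inter_right _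
          (closedBall_subset_ball (half_lt_self hδ)))).trans ?_
        rw [← ofReal_integral_norm_eq_lintegral_enorm (isub h.gi h.w.gint).integrableOn]
        exact ENNReal.ofReal_le_ofReal (by linarith)
      have s2 := lintegral_mono (μ := volume) s1
      rw [lint_ball (fun _ z => u z) (hu.comp_quasiMeasurePreserving
        (quasiMeasurePreserving_add volume volume)), lintegral_const_mul' _ _
        ENNReal.ofReal_ne_top] at s2
      simp only [lintegral_add_right_eq_self u, setLIntegral_const] at s2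
      have s3 := s2.trans (mul_le_mul_right (hlam δ hδ hδ1 f g h.w) _)
      have hv := vol_pos (d := d) (half_pos hδ)
      rw [vol_cb _ (half_pos hδ).le, lintegral_indicator (hms n), ← ENNReal.ofReal_mul
        (vol_pos (by positivity)).le, ← ENNReal.ofReal_mul (by positivity),
        ← ENNReal.le_div_iff_mul_le (Or.inl (ENNReal.ofReal_pos.2 hv).ne')
          (Or.inl ENNReal.ofReal_ne_top), ← ENNReal.ofReal_div_of_pos hv] at s3
      refine s3.trans (le_of_eq ?_)
      congr 1
      have := om_pos (d := d)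
      rw [show 9 * δ = 18 * (δ / 2) by ring, mul_pow]
      field_simp
    rw [integral_indicator (MeasurableSet.iUnion hms)]
    have h3 : ∫⁻ x in ⋃ n, TT κ f δ n, ‖G x - g x‖ₑ ≤ ENNReal.ofReal ((C1 + 1) * 18 ^ d *
        (10 * (∫ z, ‖g z - gradient φ z‖) + A * δ)) := by
      rw [setLIntegral_iUnion_of_directed _ (TT_mono hκ h.w.int hδ).directed_le]
      exact iSup_le key
    rw [← ofReal_integral_norm_eq_lintegral_enorm (isub h.gi h.w.gint).integrableOn,
      ENNReal.ofReal_le_ofReal_iff (by positivity)] at h3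
    linarith
  · filter_upwards [ae_small hκ hκ1 hδ h.w.int h.nn, h.fin, weak_eq_set h.wk h.w.weak]
      with x h3 h4 h5 hs
    rcases h3 h4 hs with h6 | ⟨n, h6⟩
    · rw [h5 h6, sub_self, norm_zero]
      exact indicator_nonneg (fun _ _ => norm_nonneg _) _
    · rw [indicator_of_mem (mem_iUnion.2 ⟨n, ?_⟩)]
      change MM κ f x ≤ _
      rw [← h6, mm, ENNReal.ofReal_toReal h4]

end Vale.Agent.N137
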