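import Vale.Agent.N137.Gl
import Vale.Agent.P137.C.Main

/-!
# Continuity of `f ↦ ∇ M f` from `W^{1,1}` to `L^1`
-/

open MeasureTheory Set Filter Topology Metric
open scoped ENNReal NNReal ContDiff

namespace Vale.Agent.N137

open Vale.Agent.P137 Vale.Agent.P137.U

variable {d : ℕ} {κ : ℝ}

theorem int_norm_le {W : Type*} [NormedAddCommGroup W] {u v : E d → W} (hu : Integrable u)
    (hv : Integrable v) : ∫ x, ‖u x‖ ≤ (∫ x, ‖v x‖) + ∫ x, ‖u x - v x‖ :=
  int_le_add hu.norm hv.norm (isub hu hv).norm fun _ => norm_le_norm_add_norm_sub' _ _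

theorem int_cut {g : E d → E d} (hg : Integrable g) (n : ℕ) :
    Integrable fun x => (1 - cut n x) * ‖g x‖ :=
  hg.norm.bdd_mul (c := 1)
    (continuous_const.sub (cut_contDiff n).continuous).aestronglyMeasurable
    (ae_of_all _ fun x => abs_le.2 ⟨by linarith [cut_le_one n x], by linarith [cut_nonneg n x]⟩)

theorem tendsto_cut {g : E d → E d} (hg : Integrable g) :
    Tendsto (fun n : ℕ => ∫ x, (1 - cut n x) * ‖g x‖) atTop (𝓝 0) := by
  have h := tendsto_integral_of_dominated_convergence (μ := volume)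
    (F := fun (n : ℕ) x => (1 - cut n x) * ‖g x‖) (f := fun _ => (0 : ℝ)) (fun x => ‖g x‖)
    (fun n => (int_cut hg n).1) hg.norm
    (fun n => ae_of_all _ fun x => by
      rw [norm_mul, norm_norm]
      exact mul_le_of_le_one_left (norm_nonneg _)
        (abs_le.2 ⟨by linarith [cut_le_one n x], by linarith [cut_nonneg n x]⟩))
    (ae_of_all _ fun x => by
      refine tendsto_const_nhds.congr' ?_
      obtain ⟨N, hN⟩ := exists_nat_ge ‖x‖
      filter_upwards [eventually_ge_atTop N] with n hn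
      have : (N : ℝ) ≤ n := by exact_mod_cast hn
      rw [cut_eq_one (by linarith), sub_self, zero_mul])
  simpa using h

theorem tendsto_tl :
    Tendsto (fun n : ℕ => ∫ x in (ball (0 : E d) (4 * (n + 1)))ᶜ, tl x) atTop (𝓝 0) := by
  have h := tendsto_integral_of_dominated_convergence (μ := volume)
    (F := fun (n : ℕ) => (ball (0 : E d) (4 * (n + 1)))ᶜ.indicator tl) (f := fun _ => (0 : ℝ))
    (fun x => ‖tl x‖) (fun n => tl_int.1.indicator measurableSet_ball.compl) tl_int.norm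
    (fun n => ae_of_all _ fun x => norm_indicator_le_norm_self _ _)
    (ae_of_all _ fun x => by
      refine tendsto_const_nhds.congr' ?_
      obtain ⟨N, hN⟩ := exists_nat_ge ‖x‖
      filter_upwards [eventually_ge_atTop N] with n hn
      have : (N : ℝ) ≤ n := by exact_mod_cast hn
      have h0 : (0 : ℝ) ≤ n := Nat.cast_nonneg n
      rw [indicator_of_notMem (by simp only [mem_compl_iff, mem_ball_zero_iff, not_not]; linarith)])
  simpa only [integral_indicator measurableSet_ball.compl, integral_zero] using h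

/-- Continuity for nonnegative functions whose averages converge uniformly at almost all points. -/
theorem cont_nonneg (hd : 0 < d) (hκ : 0 ≤ κ) (hκ1 : κ ≤ 1) {C : ℝ≥0} (hC : Core d κ C) {C1 : ℝ}
    (hC1 : 0 ≤ C1) (hLS : LS d κ C1) {C2 : ℝ} (hC2 : 0 ≤ C2) (hB : Bnd d κ C2)
    {F : ℕ → E d → ℝ} {Γ H : ℕ → E d → E d} {f : E d → ℝ} {g G : E d → E d}
    (hF : ∀ j, Dat κ (F j) (Γ j) (H j)) (h : Dat κ f g G)
    (t1 : Tendsto (fun j => ∫ x, ‖F j x - f x‖) atTop (𝓝 0))
    (t2 : Tendsto (fun j => ∫ x, ‖Γ j x - g x‖) atTop (𝓝 0))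
    (hD : ∀ᵐ x, ∃ e : ℕ → ℝ, Tendsto e atTop (𝓝 0) ∧ ∀ᶠ j in atTop, ∀ p, Adm κ p →
      |av (F j) (x + p.1) p.2 - av f (x + p.1) p.2| ≤ e j) :
    Tendsto (fun j => ∫ x, ‖H j x - G x‖) atTop (𝓝 0) := by
  obtain ⟨C3, hC3, hsm⟩ := small_global hκ hκ1 hC hC1 hLS
  obtain ⟨A1, hA1, htail⟩ := tail_bound hd hκ hκ1 hC2 hB
  have key : ∀ ε > 0, ∀ᶠ j in atTop, ∫ x, ‖H j x - G x‖ ≤ (3 * C3 + C2 + 8) * ε := by
    intro ε hε
    obtain ⟨φ, s1, s2, -, s4⟩ := density h.w.int h.w.gint h.w.weak hε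
    have hφ := W11.of_smooth s1 s2
    obtain ⟨A, hA, hs⟩ := hsm φ s1 s2
    set δ := min 1 (ε / (A + 1)) with hδdef
    have hδ : 0 < δ := lt_min one_pos (by positivity)
    have hAδ : A * δ ≤ ε := by
      have h1 : δ ≤ ε / (A + 1) := min_le_right _ _
      rw [le_div_iff₀ (by positivity)] at h1
      nlinarith
    obtain ⟨e, ei, e0, e1, e2⟩ := hs δ hδ (min_le_left _ _) f g G h
    choose ej eji ej0 ej1 ej2 using fun j => hs δ hδ (min_le_left _ _) _ _ _ (hF j)
    set I := (∫ x, ‖f x‖) + 1 with hI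
    have u1 := (tendsto_cut h.w.gint).const_mul C2
    have u2 := (tendsto_inv_succ.add (tendsto_tl (d := d))).const_mul (A1 * I)
    rw [mul_zero] at u1
    rw [add_zero, mul_zero] at u2
    obtain ⟨n, n1, n2⟩ := ((u1.eventually_lt_const hε).and (u2.eventually_lt_const hε)).exists
    set B := ball (0 : E d) (4 * (n + 1)) with hBdef
    set T := ((n : ℝ) + 1)⁻¹ + ∫ x in Bᶜ, tl x with hT
    have hT0 : 0 ≤ T := add_nonneg (by positivity) (integral_nonneg fun x => by
      unfold tl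
      positivity)
    set c := (δ ^ d * om d)⁻¹ with hc
    have hc0 : 0 ≤ c := inv_nonneg.2 (vol_pos hδ).le
    set K := c * ((∫ x, ‖g x‖) + 1) with hK
    have hK0 : 0 ≤ K := mul_nonneg hc0 (add_nonneg (integral_nonneg fun _ => norm_nonneg _)
      zero_le_one)
    let Θ : ℕ → E d → ℝ := fun j x => max (‖H j x - G x‖ - ej j x - ‖Γ j x - g x‖ - e x) 0
    have hΘi : ∀ j, Integrable (Θ j) := fun j =>
      (isub (isub (isub (isub (hF j).gi h.gi).norm (eji j))
        (isub (hF j).w.gint h.w.gint).norm) ei).pos_part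
    have hform := ae_all_iff.2 fun j => (hF j).formula hκ
    have hej := ae_all_iff.2 ej2
    have t3 : Tendsto (fun j => ∫ x in B, Θ j x) atTop (𝓝 (∫ _ in B, (0 : ℝ))) := by
      refine tendsto_integral_filter_of_dominated_convergence (fun x => K + (‖G x‖ + ‖g x‖))
        (Eventually.of_forall fun j => (hΘi j).1.restrict) ?_
        (iadd (integrableOn_const measure_ball_lt_top.ne)
          (iadd h.gi.norm h.w.gint.norm).integrableOn) (ae_restrict_of_ae ?_)
      · filter_upwards [t2.eventually_lt_const one_pos] with j hj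
        refine ae_restrict_of_ae ?_
        filter_upwards [hform, hej] with x x1 x2
        rw [Real.norm_of_nonneg (le_max_right _ _)]
        refine max_le ?_ (by positivity)
        have a1 := norm_nonneg (Γ j x - g x)
        have a2 := norm_nonneg (g x)
        by_cases hs : Sm κ (F j) δ x
        · have a3 := x2 j hs
          have a4 := norm_sub_le_norm_sub_add_norm_sub (H j x) (Γ j x) (G x)
          have a5 := norm_sub_le_norm_sub_add_norm_sub (Γ j x) (g x) (G x)
          have a6 := norm_sub_le (g x) (G x)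
          linarith [e0 x]
        · obtain ⟨p, hp, hp1⟩ := exists_opt hd hκ hδ (hF j).w.int (hF j).nn hs
          have a3 := av_norm_le (hF j).w.gint (x + p.1) hδ hp1
          have a4 := mul_le_mul_of_nonneg_left ((int_norm_le (hF j).w.gint h.w.gint).trans
            (add_le_add le_rfl hj.le)) hc0
          rw [← x1 j p hp] at a3
          linarith [e0 x, ej0 j x, norm_sub_le (H j x) (G x)]
      · filter_upwards [hform, hej, e2, hD, h.formula hκ, h.fin] with x x1 x2 x3 x4 x5 x6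
        obtain ⟨eD, d1, d2⟩ := x4
        rw [Metric.tendsto_nhds]
        intro η hη
        obtain ⟨τ, hτ, hst⟩ := stab_large hd hκ hδ h.w h.nn x6 x5 (show 0 < η / 3 by positivity)
        have d3 : ∀ᶠ j in atTop, Sm κ (F j) δ x → Sm κ f δ x := by
          by_cases hs : Sm κ f δ x
          · exact Eventually.of_forall fun _ _ => hs
          · have := not_frequently.1 fun hfr => hs (Sm.of_frequently d1 d2 hfr)
            filter_upwards [this] with j hj hj1 using absurd hj1 hj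
        have d4 := t2.const_mul c
        rw [mul_zero] at d4
        filter_upwards [d2, d3, d1.eventually_lt_const (half_pos hτ),
          d4.eventually_lt_const (show 0 < η / 3 by positivity)] with j j1 j2 j3 j4
        rw [Real.dist_eq, sub_zero, abs_of_nonneg (le_max_right _ _)]
        refine max_lt ?_ hη
        have a1 := norm_nonneg (Γ j x - g x)
        by_cases hs : Sm κ (F j) δ x
        · have a3 := x2 j hs
          have a4 := norm_sub_le_norm_sub_add_norm_sub (H j x) (Γ j x) (G x)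
          have a5 := norm_sub_le_norm_sub_add_norm_sub (Γ j x) (g x) (G x)
          have a6 := x3 (j2 hs)
          rw [norm_sub_rev] at a6
          linarith
        · obtain ⟨p, hp, hp1⟩ := exists_opt hd hκ hδ (hF j).w.int (hF j).nn hs
          have a3 := hst p hp.1 hp1 (mm_le hκ h.nn fun q hq => by
            linarith [(abs_le.1 (j1 q hq)).1, (abs_le.1 (j1 p hp.1)).2, hp.2 q hq])
          have a4 := av_dist (hF j).w.gint h.w.gint (x + p.1) hδ hp1
          have a5 := norm_sub_le_norm_sub_add_norm_sub (H j x) (av g (x + p.1) p.2) (G x)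
          rw [← x1 j p hp] at a4
          linarith [e0 x, ej0 j x]
    rw [integral_zero] at t3
    filter_upwards [t3.eventually_lt_const hε, t2.eventually_lt_const hε,
      t1.eventually_lt_const one_pos] with j j1 j2 j3
    have iΓ := (isub (hF j).w.gint h.w.gint).norm
    have iH := (isub (hF j).gi h.gi).norm
    have b1 : ∫ x in B, ‖H j x - G x‖ ≤ (∫ x in B, (ej j x + ‖Γ j x - g x‖ + e x)) +
        ∫ x in B, Θ j x :=
      int_le_add iH.integrableOn (iadd (iadd (eji j) iΓ) ei).integrableOn (hΘi j).integrableOn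
        fun x => by linarith [le_max_left (‖H j x - G x‖ - ej j x - ‖Γ j x - g x‖ - e x) 0]
    have b2 := setIntegral_le_integral (s := B) (iadd (iadd (eji j) iΓ) ei)
      (ae_of_all _ fun x => add_nonneg (add_nonneg (ej0 j x) (norm_nonneg _)) (e0 x))
    rw [integral_add (iadd (eji j) iΓ) ei, integral_add (eji j) iΓ] at b2
    have b3 : ∫ z, ‖Γ j z - gradient φ z‖ ≤ (∫ z, ‖Γ j z - g z‖) + ∫ z, ‖g z - gradient φ z‖ :=
      int_le_add (isub (hF j).w.gint hφ.gint).norm iΓ (isub h.w.gint hφ.gint).norm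
        fun _ => norm_sub_le_norm_sub_add_norm_sub _ _ _
    have b4 := mul_le_mul_of_nonneg_left (b3.trans (add_le_add j2.le s4)) hC3
    have b5 := mul_le_mul_of_nonneg_left s4 hC3
    have b6 : ∫ x in Bᶜ, ‖H j x - G x‖ ≤ (∫ x in Bᶜ, ‖H j x‖) + ∫ x in Bᶜ, ‖G x‖ :=
      int_le_add iH.integrableOn (hF j).gi.norm.integrableOn h.gi.norm.integrableOn
        fun _ => norm_sub_le _ _
    have b7 := htail _ _ _ (hF j) n
    have b8 := htail _ _ _ h n
    have b9 : ∫ x, (1 - cut n x) * ‖Γ j x‖ ≤ (∫ x, (1 - cut n x) * ‖g x‖) + ∫ x, ‖Γ j x - g x‖ :=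
      int_le_add (int_cut (hF j).w.gint n) (int_cut h.w.gint n) iΓ fun x => by
        have c1 := norm_le_norm_add_norm_sub' (Γ j x) (g x)
        have c2 := cut_le_one n x
        have c3 := mul_nonneg (cut_nonneg n x) (norm_nonneg (Γ j x - g x))
        nlinarith
    have b10 := mul_le_mul_of_nonneg_left (b9.trans (add_le_add le_rfl j2.le)) hC2
    have b11 : A1 * (∫ x, ‖F j x‖) * T ≤ A1 * I * T :=
      mul_le_mul_of_nonneg_right (mul_le_mul_of_nonneg_left
        ((int_norm_le (hF j).w.int h.w.int).trans (add_le_add le_rfl j3.le)) hA1) hT0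
    have b12 : A1 * (∫ x, ‖f x‖) * T ≤ A1 * I * T :=
      mul_le_mul_of_nonneg_right (mul_le_mul_of_nonneg_left (by linarith) hA1) hT0
    rw [← integral_add_compl (measurableSet_ball (x := (0 : E d)) (ε := 4 * (n + 1))) iH]
    linarith [ej1 j]
  rw [Metric.tendsto_nhds]
  intro ε hε
  filter_upwards [key (ε / (2 * (3 * C3 + C2 + 8))) (by positivity)] with j hj
  rw [Real.dist_eq, sub_zero, abs_of_nonneg (integral_nonneg fun _ => norm_nonneg _)]
  refine hj.trans_lt ?_
  rw [mul_div_assoc', mul_comm 2, mul_div_mul_left _ _ (by positivity)]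
  linarith

theorem ttA_eq (f : E d → ℝ) (y : E d) (r : ℝ) : ttA f y r = av (fun z => |f z|) y r := by
  rw [ttA, av, setAverage_eq, smul_eq_mul]

/-- The maximal functions of a fast null sequence in `W^{1,1}` tend to `0` almost everywhere. -/
theorem max_tendsto (hd : 0 < d) {k : ℕ → E d → ℝ} {γ : ℕ → E d → E d}
    (h : ∀ j, W11 (k j) (γ j)) (hγ : ∀ j, ∫ x, ‖γ j x‖ ≤ (2⁻¹ : ℝ) ^ j) :
    ∀ᵐ x, Tendsto (fun j => uncenteredMax (k j) x) atTop (𝓝 0) := by
  obtain ⟨C, C', hC⟩ := core_scaled hd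
  have h1 : ∀ j, Measurable (uncenteredMax (k j)) ∧ ∀ R : ℝ, 0 < R →
      ∫⁻ x in ball (0 : E d) R, uncenteredMax (k j) x ≤
        (ENNReal.ofReal R * C * 2) * ENNReal.ofReal ((2⁻¹ : ℝ) ^ j) := by
    intro j
    have hdens : ∀ n : ℕ, ∃ φ : E d → ℝ, ContDiff ℝ ∞ φ ∧ HasCompactSupport φ ∧
        ∫ x, ‖k j x - φ x‖ ≤ min (2⁻¹ ^ (n * (d + 1))) (2⁻¹ ^ j) ∧
        ∫ x, ‖γ j x - gradient φ x‖ ≤ min (2⁻¹ ^ (n * (d + 1))) (2⁻¹ ^ j) :=
      fun n => density (h j).int (h j).gint (h j).weak (by positivity)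
    choose φ s1 s2 s3 s4 using hdens
    have hA : FaApprox (k j) φ := ⟨s1, s2, fun n => (s3 n).trans (min_le_left _ _)⟩
    refine ⟨hA.measurable (h j).int, fun R hR => ?_⟩
    refine (hA.ball_bound hd hC (h j).int (B := 2 * ENNReal.ofReal (2⁻¹ ^ j)) (fun n => ?_)
      hR).trans (le_of_eq (by ring))
    have h3 := fa_set_grad (φ := φ n) (b := ENNReal.ofReal (2⁻¹ ^ j)) (h j).gint (by
      rw [← ofReal_integral_norm_eq_lintegral_enorm
        (isub (h j).gint (fa_integrable_gradient (s1 n) (s2 n)))]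
      exact ENNReal.ofReal_le_ofReal ((s4 n).trans (min_le_right _ _))) univ
    rw [Measure.restrict_univ, ← ofReal_integral_norm_eq_lintegral_enorm (h j).gint] at h3
    rw [two_mul]
    exact h3.trans (add_le_add (ENNReal.ofReal_le_ofReal (hγ j)) le_rfl)
  have h2 : ∀ n : ℕ, ∀ᵐ x, x ∈ ball (0 : E d) (n + 1) →
      Tendsto (fun j => uncenteredMax (k j) x) atTop (𝓝 0) := by
    intro n
    rw [← ae_restrict_iff' measurableSet_ball]
    refine ae_tendsto_of_tsum (fun j => (h1 j).1.aemeasurable) ?_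
    exact ne_top_of_le_ne_top (tsum_geo_ne_top _ (ENNReal.mul_ne_top (ENNReal.mul_ne_top
      ENNReal.ofReal_ne_top ENNReal.coe_ne_top) ENNReal.ofNat_ne_top))
      (ENNReal.tsum_le_tsum fun j => (h1 j).2 _ (by positivity))
  filter_upwards [ae_all_iff.2 h2] with x hx
  obtain ⟨n, hn⟩ := exists_nat_ge ‖x‖
  exact hx n (mem_ball_zero_iff.2 (by linarith))

/-- Continuity on `W^{1,1}`. -/
theorem cont_signed (hd : 0 < d) (hκ : 0 ≤ κ) (hκ1 : κ ≤ 1) {C : ℝ≥0} (hC : Core d κ C) {C1 : ℝ}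
    (hC1 : 0 ≤ C1) (hLS : LS d κ C1) {C2 : ℝ} (hC2 : 0 ≤ C2) (hB : Bnd d κ C2)
    {F : ℕ → E d → ℝ} {Γ H : ℕ → E d → E d} {f : E d → ℝ} {g G : E d → E d}
    (hF : ∀ j, W11 (F j) (Γ j)) (h : W11 f g)
    (hH : ∀ j, Dat κ (fun x => |F j x|) (fun x => Real.sign (F j x) • Γ j x) (H j))
    (hG : Dat κ (fun x => |f x|) (fun x => Real.sign (f x) • g x) G)
    (t1 : Tendsto (fun j => ∫ x, ‖F j x - f x‖) atTop (𝓝 0))
    (t2 : Tendsto (fun j => ∫ x, ‖Γ j x - g x‖) atTop (𝓝 0)) :
    Tendsto (fun j => ∫ x, ‖H j x - G x‖) atTop (𝓝 0) := by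
  refine tendsto_of_subseq_tendsto fun ns hns => ?_
  have h1 : ∀ j : ℕ, ∃ m, (∫ x, ‖F (ns m) x - f x‖ < (2⁻¹ : ℝ) ^ j) ∧
      ∫ x, ‖Γ (ns m) x - g x‖ < (2⁻¹ : ℝ) ^ j := fun j =>
    (((t1.comp hns).eventually_lt_const (by positivity)).and
      ((t2.comp hns).eventually_lt_const (by positivity))).exists
  choose ms m1 m2 using h1
  refine ⟨ms, ?_⟩
  set σ : ℕ → ℕ := fun j => ns (ms j) with hσ
  have hae := ae_tendsto_of_fast (fun j => (hF (σ j)).int) h.int fun j => (m1 j).le
  refine cont_nonneg hd hκ hκ1 hC hC1 hLS hC2 hB (fun j => hH (σ j)) hG ?_ ?_ ?_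
  · refine squeeze_zero (fun _ => integral_nonneg fun _ => norm_nonneg _) (fun j => ?_) tendsto_geo
    exact (integral_mono (isub (hF _).int.abs h.int.abs).norm (isub (hF _).int h.int).norm
      fun x => abs_abs_sub_abs_le_abs_sub _ _).trans (m1 j).le
  · have hm : ∀ j, AEStronglyMeasurable (fun x => Real.sign (F (σ j) x) • g x) volume := fun j =>
      (measurable_rsign.comp_aemeasurable (hF _).int.1.aemeasurable).aestronglyMeasurable.smul
        h.gint.1
    have t3 := tendsto_L1_of_dom hm hG.w.gint.1 (h.gint.norm.add h.gint.norm)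
      (fun j => ae_of_all _ fun x =>
        (norm_sub_le _ _).trans (add_le_add (norm_sign_smul _ _) (norm_sign_smul _ _)))
      (by
        filter_upwards [hae, h.zero_set] with x hx hx0
        rcases lt_trichotomy (f x) 0 with hf | hf | hf
        · refine tendsto_const_nhds.congr' ?_
          filter_upwards [hx.eventually_lt_const hf] with j hj
          rw [Real.sign_of_neg hf, Real.sign_of_neg hj]
        · simp [hx0 hf]
        · refine tendsto_const_nhds.congr' ?_
          filter_upwards [hx.eventually_const_lt hf] with j hj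
          rw [Real.sign_of_pos hf, Real.sign_of_pos hj])
    have t4 := tendsto_geo.add t3
    rw [add_zero] at t4
    refine squeeze_zero (fun _ => integral_nonneg fun _ => norm_nonneg _) (fun j => ?_) t4
    have hi : Integrable fun x => Real.sign (F (σ j) x) • g x :=
      h.gint.mono (hm j) (ae_of_all _ fun x => norm_sign_smul _ _)
    refine le_trans ?_ (add_le_add (m2 j).le le_rfl)
    refine int_le_add (isub (hH _).w.gint hG.w.gint).norm (isub (hF _).gint h.gint).norm
      (isub hi hG.w.gint).norm fun x => ?_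
    refine (norm_sub_le_norm_sub_add_norm_sub _ (Real.sign (F (σ j) x) • g x) _).trans
      (add_le_add ?_ le_rfl)
    rw [← smul_sub]
    exact norm_sign_smul _ _
  · filter_upwards [max_tendsto hd (fun j => (hF (σ j)).sub h) fun j => (m2 j).le] with x hx
    refine ⟨fun j => (uncenteredMax (fun z => F (σ j) z - f z) x).toReal,
      (ENNReal.tendsto_toReal ENNReal.zero_ne_top).comp hx, ?_⟩
    filter_upwards [hx.eventually_lt_const ENNReal.zero_lt_top] with j hj p hp
    have a1 := tt_A_le_max (isub (hF (σ j)).int h.int) (x + p.1) x hp.1 (by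
      rw [dist_self_add_right]
      exact hp.2.trans (mul_le_of_le_one_left hp.1.le hκ1))
    rw [ENNReal.ofReal_le_iff_le_toReal hj.ne, ttA_eq] at a1
    refine le_trans ?_ a1
    rw [← av_sub (hF _).int.abs.integrableOn h.int.abs.integrableOn]
    have a2 := av_norm_le_on (F := fun z => |F (σ j) z| - |f z|) (y := x + p.1) hp.1 le_rfl
      (setIntegral_mono_on (isub (hF _).int.abs h.int.abs).norm.integrableOn
        (isub (hF (σ j)).int h.int).abs.integrableOn measurableSet_closedBall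
        fun z _ => abs_abs_sub_abs_le_abs_sub _ _)
    rwa [av_eq (fun z => |F (σ j) z - f z|) _ hp.1.le]

theorem MM_zero {f : E d → ℝ} (hf : Integrable f) : MM 0 (fun z => |f z|) = maximalFn f := by
  funext x
  refine le_antisymm (iSup₂_le fun p hp => ?_) (iSup₂_le fun r hr => ?_)
  · have h1 : p.1 = 0 := by simpa using hp.2
    rw [← ttA_eq, tt_A_ofReal hf _ hp.1, h1, add_zero]
    exact le_iSup₂_of_le p.2 hp.1 le_rfl
  · rw [← tt_A_ofReal hf _ hr, ttA_eq]
    exact le_iSup₂_of_le ((0 : E d), r) (adm_zero le_rfl hr) (by simp)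

theorem MM_one {f : E d → ℝ} (hf : Integrable f) : MM 1 (fun z => |f z|) = uncenteredFn f := by
  funext x
  refine le_antisymm (iSup₂_le fun p hp => ?_)
    (iSup_le fun y => iSup_le fun r => iSup_le fun hr => iSup_le fun hx => ?_)
  · rw [← ttA_eq]
    exact tt_A_le_max hf (x + p.1) x hp.1 (by simpa using hp.2)
  · rw [← tt_A_ofReal hf _ hr, ttA_eq]
    exact le_iSup₂_of_le (y - x, r) ⟨hr, by
      rw [one_mul, ← dist_eq_norm, dist_comm]
      exact (mem_ball.1 hx).le⟩ (by simp)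

theorem thick_le {u : E d → ℝ} (ρ : ℝ) :
    ∫⁻ x in thickening ρ univ, ‖fderiv ℝ u x‖ₑ ≤ ∫⁻ x, ‖gradient u x‖ₑ := by
  simp only [fa_enorm_gradient]
  exact setLIntegral_le_lintegral _ _

theorem core_one (hd : 0 < d) : ∃ C, Core d 1 C := by
  obtain ⟨C, C', hC⟩ := core_scaled hd
  refine ⟨C, fun φ h1 h2 η hη K => ?_⟩
  have h3 : mx 1 φ η (2 * 2 ^ K * η) = uu φ (fun _ => η) (2 * 2 ^ K * η) := by
    funext x
    unfold mx uu
    congr 1
    ext t
    constructor
    · rintro ⟨p, hp, rfl⟩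
      exact ⟨x + p.1, p.2, hp.1, hp.2.1, by simpa using hp.2.2, avg_eq_av _ _ (hη.trans_le hp.1)⟩
    · rintro ⟨y, r, a1, a2, a3, rfl⟩
      refine ⟨(y - x, r), ⟨a1, a2, by rwa [one_mul, ← dist_eq_norm, dist_comm]⟩, ?_⟩
      simp only [add_sub_cancel, avg_eq_av _ _ (hη.trans_le a1)]
  have h4 := hC φ (h1.of_le (by simp)) h2 η hη K univ MeasurableSet.univ
  rw [Measure.restrict_univ] at h4
  simp only [h3, fa_enorm_gradient (uu _ _ _)]
  exact h4.trans (mul_le_mul_right (thick_le _) _)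

open Vale.Agent.P137.U.Cen in
theorem core_zero (hd : 0 < d) : ∃ C, Core d 0 C := by
  obtain ⟨C, C', hC⟩ := Co2.faCore_of hd (specForest hd) (specOrigin d)
    (perTree hd
      (cell (specII d) (specId hd) (specPW2 (pw1 hd (specGood hd) (specBad hd) (specId hd)))
        (pwb hd (specBad hd)) (specMajB hd) (specMajB' hd) (Mj.specMajC hd) (Mj.specMajD hd))
      (specMono d))
  refine ⟨C, fun φ h1 h2 η hη K => ?_⟩
  have h3 : mx 0 φ η (2 * 2 ^ K * η) = cu φ (fun _ => η) (2 * 2 ^ K * η) := by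
    funext x
    unfold mx cu
    congr 1
    ext t
    constructor
    · rintro ⟨p, hp, rfl⟩
      have h5 : p.1 = 0 := by simpa using hp.2.2
      exact ⟨p.2, hp.1, hp.2.1, by simp only [h5, add_zero, avg_eq_av _ _ (hη.trans_le hp.1)]⟩
    · rintro ⟨r, a1, a2, rfl⟩
      refine ⟨(0, r), KK_mem le_rfl hη a1 a2, ?_⟩
      simp only [add_zero, avg_eq_av _ _ (hη.trans_le a1)]
  have h4 := hC φ (h1.of_le (by simp)) h2 η hη K univ MeasurableSet.univ
  rw [Measure.restrict_univ] at h4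
  simp only [h3, fa_enorm_gradient (cu _ _ _)]
  exact h4.trans (mul_le_mul_right (thick_le _) _)

section Final

variable {M : (E d → ℝ) → E d → ℝ≥0∞} {C : ℝ}
  (hM : ∀ f, Integrable f → MM κ (fun z => |f z|) = M f)
  (hb : ∀ (f : E d → ℝ) (g : E d → E d), Integrable f → Integrable g → WeakGrad f g →
    (∀ᵐ x, M f x ≠ ⊤) ∧ ∃ G : E d → E d, Integrable G ∧
      WeakGrad (fun x => (M f x).toReal) G ∧ ∫ x, ‖G x‖ ≤ C * ∫ x, ‖g x‖)

include hM hb

theorem dat_of {f : E d → ℝ} {g G : E d → E d} (h : W11 f g)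
    (hG : WeakGrad (fun x => (M f x).toReal) G) :
    Dat κ (fun x => |f x|) (fun x => Real.sign (f x) • g x) G := by
  obtain ⟨h1, G', h2, h3, -⟩ := hb f g h.int h.gint (weakGrad_of_isWeak h.weak)
  refine ⟨h.abs, fun _ => abs_nonneg _, by rwa [hM f h.int],
    h2.congr (fa_unique (isWeak_of_weakGrad h3) (isWeak_of_weakGrad hG)), ?_⟩
  unfold mm
  rw [hM f h.int]
  exact isWeak_of_weakGrad hG

theorem bnd_of : Bnd d κ (max C 0) := by
  intro f g h h0
  obtain ⟨h1, G, h2, h3, h4⟩ := hb f g h.int h.gint (weakGrad_of_isWeak h.weak)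
  have h5 : MM κ f = M f := by
    rw [← hM f h.int]
    simp only [abs_of_nonneg (h0 _)]
  refine ⟨G, ⟨h, h0, by rwa [h5], h2, ?_⟩, h4.trans (mul_le_mul_of_nonneg_right (le_max_left _ _)
    (integral_nonneg fun _ => norm_nonneg _))⟩
  unfold mm
  rw [h5]
  exact isWeak_of_weakGrad h3

omit hM hb in
theorem tendsto_real {W : Type*} [NormedAddCommGroup W] {u : ℕ → E d → W}
    (hu : ∀ n, Integrable (u n)) : Tendsto (fun n => ∫⁻ x, ‖u n x‖ₑ) atTop (𝓝 0) ↔
      Tendsto (fun n => ∫ x, ‖u n x‖) atTop (𝓝 0) := by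
  constructor
  · intro h
    refine ((ENNReal.tendsto_toReal ENNReal.zero_ne_top).comp h).congr fun n => ?_
    exact (integral_norm_eq_lintegral_enorm (hu n).1).symm
  · intro h
    have h1 := ENNReal.tendsto_ofReal h
    rw [ENNReal.ofReal_zero] at h1
    exact h1.congr fun n => ofReal_integral_norm_eq_lintegral_enorm (hu n)

theorem cont_of (hd : 0 < d) (hκ : 0 ≤ κ) (hκ1 : κ ≤ 1) {C0 : ℝ≥0} (hC : Core d κ C0) {C1 : ℝ}
    (hC1 : 0 ≤ C1) (hLS : LS d κ C1) (F : ℕ → E d → ℝ) (Γ H : ℕ → E d → E d) (f : E d → ℝ)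
    (g G : E d → E d) (hF : ∀ j, Integrable (F j) ∧ Integrable (Γ j) ∧ WeakGrad (F j) (Γ j) ∧
      WeakGrad (fun x => (M (F j) x).toReal) (H j))
    (h : Integrable f ∧ Integrable g ∧ WeakGrad f g ∧ WeakGrad (fun x => (M f x).toReal) G)
    (t1 : Tendsto (fun j => ∫⁻ x, ‖F j x - f x‖ₑ) atTop (𝓝 0))
    (t2 : Tendsto (fun j => ∫⁻ x, ‖Γ j x - g x‖ₑ) atTop (𝓝 0)) :
    Tendsto (fun j => ∫⁻ x, ‖H j x - G x‖ₑ) atTop (𝓝 0) := by
  have w1 : ∀ j, W11 (F j) (Γ j) := fun j =>
    ⟨(hF j).1, (hF j).2.1, isWeak_of_weakGrad (hF j).2.2.1⟩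
  have w2 : W11 f g := ⟨h.1, h.2.1, isWeak_of_weakGrad h.2.2.1⟩
  have d1 := fun j => dat_of hM hb (w1 j) (hF j).2.2.2
  have d2 := dat_of hM hb w2 h.2.2.2
  exact (tendsto_real fun j => isub (d1 j).gi d2.gi).2 (cont_signed hd hκ hκ1 hC hC1 hLS
    (le_max_right _ _) (bnd_of hM hb) w1 w2 d1 d2
    ((tendsto_real fun j => isub (w1 j).int w2.int).1 t1)
    ((tendsto_real fun j => isub (w1 j).gint w2.gint).1 t2))

theorem formula_of (hκ : 0 ≤ κ) (f : E d → ℝ) (g G : E d → E d)
    (h : Integrable f ∧ Integrable g ∧ WeakGrad f g ∧ WeakGrad (fun x => (M f x).toReal) G) :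
    ∀ᵐ x, (M f x = ‖f x‖ₑ → G x = Real.sign (f x) • g x) ∧ ∀ y r, 0 < r → dist x y ≤ κ * r →
      M f x = (∫⁻ z in ball y r, ‖f z‖ₑ) / volume (ball y r) →
      G x = ⨍ z in ball y r, Real.sign (f z) • g z := by
  have w2 : W11 f g := ⟨h.1, h.2.1, isWeak_of_weakGrad h.2.2.1⟩
  have d2 := dat_of hM hb w2 h.2.2.2
  filter_upwards [d2.formula hκ, d2.fin, weak_eq_set d2.wk d2.w.weak] with x x1 x2 x3
  refine ⟨fun hx => x3 ?_, fun y r hr hy hx => ?_⟩
  · rw [mm, hM f h.1, hx, toReal_enorm, Real.norm_eq_abs]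
  · have a1 : Adm κ (y - x, r) := ⟨hr, by rwa [← dist_eq_norm, dist_comm]⟩
    rw [← tt_A_ofReal h.1 y hr, ttA_eq] at hx
    have a2 := x1 _ (opt_of_eq x2 a1 (by
      rw [mm, hM f h.1, hx, add_sub_cancel,
        ENNReal.toReal_ofReal (av_nonneg (fun _ => abs_nonneg _) _ _)]))
    rw [a2, add_sub_cancel, av]
    refine setAverage_congr ?_
    have h4 : volume (sphere y r) = 0 := Measure.addHaar_sphere_of_ne_zero volume y hr.ne'
    refine EventuallyLE.antisymm ?_ (LE.le.eventuallyLE ball_subset_closedBall)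
    rw [ae_le_set, closedBall_sdiff_ball, h4]

end Final

end Vale.Agent.N137
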