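import Vale.Agent.N137.Defs
import Vale.Agent.N137.Main

/-!
# P137: the endpoint gradient bound, and continuity of `f ↦ ∇ M f` from `W^{1,1}` to `L^1`
-/

open Vale.Agent.P137 Vale.Agent.N137

/-- For the centered and the uncentered maximal operator on `ℝ^d`: (1) the endpoint bound of
Hajłasz-Onninen; (2) `f ↦ ∇ M f` is continuous from `W^{1,1}` to `L^1`; (3) the gradient of `M f`
is the average of `∇|f| = sign(f) ∇f` over any optimal ball. -/
theorem Vale.Agent.N137.oldContinuity (d : ℕ) (hd : 0 < d) :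
    (∃ C : ℝ, CenteredBound (EuclideanSpace ℝ (Fin d)) C ∧
      UncenteredBound (EuclideanSpace ℝ (Fin d)) C) ∧
    (GradContinuous (V := EuclideanSpace ℝ (Fin d)) maximalFn ∧
      GradContinuous (V := EuclideanSpace ℝ (Fin d)) uncenteredFn) ∧
    (GradFormula (V := EuclideanSpace ℝ (Fin d)) maximalFn 0 ∧
      GradFormula (V := EuclideanSpace ℝ (Fin d)) uncenteredFn 1) := by
  obtain ⟨C, hC, hU⟩ := bothBound d hd
  obtain ⟨C0, h0⟩ := core_zero hd
  obtain ⟨C1, h1, h2⟩ := ls_centered h0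
  obtain ⟨C2, h3⟩ := core_one hd
  obtain ⟨C3, h4, h5⟩ := ls_uncentered hd h3
  exact ⟨⟨C, hC, hU⟩,
    ⟨cont_of (fun _ => MM_zero) hC hd le_rfl zero_le_one h0 h1 h2,
      cont_of (fun _ => MM_one) hU hd zero_le_one le_rfl h3 h4 h5⟩,
    formula_of (fun _ => MM_zero) hC le_rfl, formula_of (fun _ => MM_one) hU zero_le_one⟩
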