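import Vale.Agent.N137.Av
import Mathlib.MeasureTheory.Covering.DensityTheorem
import Mathlib.Analysis.SpecialFunctions.JapaneseBracket

/-!
# The gradient of the maximal function at a point: optimal balls, small and large radii, tails
-/

open MeasureTheory Set Filter Topology Metric
open scoped ENNReal NNReal ContDiff

namespace Vale.Agent.N137

open Vale.Agent.P137 Vale.Agent.P137.U

variable {d : ℕ} {κ δ : ℝ} {f : E d → ℝ} {g G : E d → E d} {x : E d}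

/-- Admissible (shift, radius) pairs. -/
def Adm (κ : ℝ) (p : E d × ℝ) : Prop := 0 < p.2 ∧ ‖p.1‖ ≤ κ * p.2

/-- The maximal function (without modulus). -/
noncomputable def MM (κ : ℝ) (f : E d → ℝ) (x : E d) : ℝ≥0∞ :=
  ⨆ (p : E d × ℝ) (_ : Adm κ p), ENNReal.ofReal (av f (x + p.1) p.2)

/-- The maximal function with real values. -/
noncomputable def mm (κ : ℝ) (f : E d → ℝ) (x : E d) : ℝ := (MM κ f x).toReal

/-- Optimal pairs. -/
def Opt (κ : ℝ) (f : E d → ℝ) (x : E d) (p : E d × ℝ) : Prop :=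
  Adm κ p ∧ ∀ q, Adm κ q → av f (x + q.1) q.2 ≤ av f (x + p.1) p.2

/-- The supremum is approached with radii at most `δ`. -/
def Sm (κ : ℝ) (f : E d → ℝ) (δ : ℝ) (x : E d) : Prop :=
  ∀ p, Adm κ p → ∀ ε > 0, ∃ q, Adm κ q ∧ q.2 ≤ δ ∧ av f (x + p.1) p.2 ≤ av f (x + q.1) q.2 + ε

/-- A nonnegative function in `W^{1,1}`, its gradient and the gradient of its maximal function. -/
structure Dat (κ : ℝ) (f : E d → ℝ) (g G : E d → E d) : Prop where
  w : W11 f g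
  nn : ∀ x, 0 ≤ f x
  fin : ∀ᵐ x, MM κ f x ≠ ⊤
  gi : Integrable G
  wk : IsWeakGradient (mm κ f) G

/-- The endpoint bound. -/
def Bnd (d : ℕ) (κ C : ℝ) : Prop := ∀ (f : E d → ℝ) (g : E d → E d), W11 f g → (∀ x, 0 ≤ f x) →
  ∃ G, Dat κ f g G ∧ ∫ x, ‖G x‖ ≤ C * ∫ x, ‖g x‖

theorem adm_zero (hκ : 0 ≤ κ) {r : ℝ} (hr : 0 < r) : Adm κ ((0 : E d), r) :=
  ⟨hr, by simpa using mul_nonneg hκ hr.le⟩

theorem adm_of_KK {η R : ℝ} (hη : 0 < η) {p : E d × ℝ} (hp : p ∈ KK d κ η R) : Adm κ p :=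
  ⟨hη.trans_le hp.1, hp.2.2⟩

theorem le_mm (h : MM κ f x ≠ ⊤) {p : E d × ℝ} (hp : Adm κ p) :
    av f (x + p.1) p.2 ≤ mm κ f x :=
  (ENNReal.ofReal_le_iff_le_toReal h).1 (le_iSup₂_of_le p hp le_rfl)

theorem MM_le {b : ℝ} (h : ∀ p, Adm κ p → av f (x + p.1) p.2 ≤ b) :
    MM κ f x ≤ ENNReal.ofReal b :=
  iSup₂_le fun p hp => ENNReal.ofReal_le_ofReal (h p hp)

theorem mm_le (hκ : 0 ≤ κ) (hf : ∀ x, 0 ≤ f x) {b : ℝ}
    (h : ∀ p, Adm κ p → av f (x + p.1) p.2 ≤ b) : mm κ f x ≤ b :=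
  ENNReal.toReal_le_of_le_ofReal ((av_nonneg hf _ _).trans (h _ (adm_zero hκ one_pos))) (MM_le h)

theorem Opt.fin {p : E d × ℝ} (h : Opt κ f x p) : MM κ f x ≠ ⊤ :=
  ne_top_of_le_ne_top ENNReal.ofReal_ne_top (MM_le h.2)

theorem Opt.eq (hκ : 0 ≤ κ) (hf : ∀ x, 0 ≤ f x) {p : E d × ℝ} (h : Opt κ f x p) :
    mm κ f x = av f (x + p.1) p.2 :=
  le_antisymm (mm_le hκ hf h.2) (le_mm h.fin h.1)

theorem opt_of_eq (h : MM κ f x ≠ ⊤) {p : E d × ℝ} (hp : Adm κ p)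
    (he : mm κ f x ≤ av f (x + p.1) p.2) : Opt κ f x p :=
  ⟨hp, fun _ hq => (le_mm h hq).trans he⟩

theorem mx_le_mm (hf : Integrable f) (hκ : 0 ≤ κ) {η R : ℝ} (hη : 0 < η) (hR : η ≤ R)
    (h : MM κ f x ≠ ⊤) : mx κ f η R x ≤ mm κ f x := by
  obtain ⟨p, hp, h1⟩ := mx_attained hf hκ hη hR x
  exact h1 ▸ le_mm h (adm_of_KK hη hp)

theorem Dat.eq_mx (h : Dat κ f g G) (hκ : 0 ≤ κ) {η R : ℝ} (hη : 0 < η) (hR : η ≤ R) :
    ∀ᵐ x, DifferentiableAt ℝ (mx κ f η R) x ∧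
      (mm κ f x = mx κ f η R x → G x = gradient (mx κ f η R) x) := by
  obtain ⟨L, hL⟩ := mx_lip h.w hκ hη hR
  filter_upwards [hL.ae_differentiableAt (μ := volume), weak_eq_set h.wk (weak_lip hL)]
    with x h1 h2
  exact ⟨h1, h2⟩

/-- The gradient of the maximal function is the average of the gradient over any optimal ball. -/
theorem Dat.formula (h : Dat κ f g G) (hκ : 0 ≤ κ) :
    ∀ᵐ x, ∀ p, Opt κ f x p → G x = av g (x + p.1) p.2 := by
  have hpos : ∀ n : ℕ, (0 : ℝ) < ((n : ℝ) + 1)⁻¹ := fun n => by positivity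
  have hle : ∀ n : ℕ, ((n : ℝ) + 1)⁻¹ ≤ n + 1 := fun n =>
    (inv_le_one_of_one_le₀ (by simp)).trans (by simp)
  filter_upwards [ae_all_iff.2 fun n : ℕ => h.eq_mx hκ (hpos n) (hle n)] with x hx p hp
  obtain ⟨n, hn⟩ := exists_nat_ge (max p.2 p.2⁻¹)
  have hK : p ∈ KK d κ ((n : ℝ) + 1)⁻¹ (n + 1) :=
    ⟨inv_le_of_inv_le₀ hp.1.1 (by linarith [le_max_right p.2 p.2⁻¹]),
      by linarith [le_max_left p.2 p.2⁻¹], hp.1.2⟩
  have h1 := mx_le_mm h.w.int hκ (hpos n) (hle n) hp.fin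
  have h2 := av_le_mx h.w.int hκ (hpos n) x hK
  have h3 := hp.eq hκ h.nn
  rw [(hx n).2 (by linarith), grad_mx h.w hκ (hpos n) hK (by linarith) (hx n).1]

theorem exists_large (hd : 0 < d) (A : ℝ) {ε : ℝ} (hε : 0 < ε) (R0 : ℝ) :
    ∃ R, R0 ≤ R ∧ 0 < R ∧ (R ^ d * om d)⁻¹ * A ≤ ε := by
  have h1 : Tendsto (fun R : ℝ => (R ^ d * om d)⁻¹ * A) atTop (𝓝 (0 * A)) :=
    (tendsto_inv_atTop_zero.comp ((tendsto_pow_atTop hd.ne').atTop_mul_const om_pos)).mul_const A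
  rw [zero_mul] at h1
  obtain ⟨R, h2, h3, h4⟩ := ((eventually_ge_atTop R0).and ((eventually_gt_atTop 0).and
    (h1.eventually_lt_const hε))).exists
  exact ⟨R, h2, h3, h4.le⟩

theorem exists_opt (hd : 0 < d) (hκ : 0 ≤ κ) (hδ : 0 < δ) (hf : Integrable f)
    (h0 : ∀ x, 0 ≤ f x) (h : ¬ Sm κ f δ x) : ∃ p, Opt κ f x p ∧ δ ≤ p.2 := by
  unfold Sm at h
  push Not at h
  obtain ⟨p0, hp0, ε, hε, h1⟩ := h
  have h2 : ε < av f (x + p0.1) p0.2 := by
    have := h1 _ (adm_zero hκ hδ) le_rfl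
    linarith [av_nonneg h0 (x + ((0 : E d), δ).1) ((0 : E d), δ).2]
  have h3 : δ ≤ p0.2 := by
    by_contra hc
    have := h1 p0 hp0 (not_le.1 hc).le
    linarith
  obtain ⟨R, hR1, hR2, hR3⟩ := exists_large hd (∫ z, ‖f z‖) hε p0.2
  obtain ⟨p, hp, hp1⟩ := mx_attained hf hκ hδ (h3.trans hR1) x
  have h4 := av_le_mx hf hκ hδ x (⟨h3, hR1, hp0.2⟩ : p0 ∈ KK d κ δ R)
  refine ⟨p, ⟨adm_of_KK hδ hp, fun q hq => ?_⟩, hp.1⟩
  rcases le_total q.2 δ with h5 | h5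
  · linarith [h1 q hq h5]
  rcases le_total q.2 R with h6 | h6
  · linarith [av_le_mx hf hκ hδ x (⟨h5, h6, hq.2⟩ : q ∈ KK d κ δ R)]
  · have h7 := (le_abs_self _).trans (av_norm_le hf (x + q.1) hR2 h6)
    linarith

theorem Sm.of_frequently {F : ℕ → E d → ℝ} {e : ℕ → ℝ} (he : Tendsto e atTop (𝓝 0))
    (hc : ∀ᶠ n in atTop, ∀ p, Adm κ p → |av (F n) (x + p.1) p.2 - av f (x + p.1) p.2| ≤ e n)
    (h : ∃ᶠ n in atTop, Sm κ (F n) δ x) : Sm κ f δ x := by
  intro p hp ε hε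
  obtain ⟨n, hn, h1, h2⟩ := (h.and_eventually (hc.and
    (he.eventually_lt_const (show 0 < ε / 3 by positivity)))).exists
  obtain ⟨q, hq, hq1, hq2⟩ := hn p hp (ε / 3) (by positivity)
  refine ⟨q, hq, hq1, ?_⟩
  linarith [(abs_le.1 (h1 p hp)).1, (abs_le.1 (h1 q hq)).2]

/-- The lower radius at level `n`. -/
noncomputable def lo (δ : ℝ) (n : ℕ) : ℝ := δ / (2 * 2 ^ n)

theorem lo_pos (hδ : 0 < δ) (n : ℕ) : 0 < lo δ n := by
  unfold lo
  positivity

theorem lo_mul (δ : ℝ) (n : ℕ) : 2 * 2 ^ n * lo δ n = δ := by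
  unfold lo
  field_simp

theorem lo_le (hδ : 0 < δ) (n : ℕ) : lo δ n ≤ δ :=
  (le_two_pow (lo_pos hδ n) n).trans (lo_mul δ n).le

theorem lo_tendsto (δ : ℝ) : Tendsto (lo δ) atTop (𝓝 0) := by
  have h := tendsto_geo.const_mul (δ / 2)
  rw [mul_zero] at h
  refine h.congr fun n => ?_
  unfold lo
  rw [inv_pow]
  field_simp

theorem ae_small (hκ : 0 ≤ κ) (hκ1 : κ ≤ 1) (hδ : 0 < δ) (hf : Integrable f)
    (h0 : ∀ x, 0 ≤ f x) : ∀ᵐ x, MM κ f x ≠ ⊤ → Sm κ f δ x →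
      mm κ f x = f x ∨ ∃ n, mm κ f x = mx κ f (lo δ n) δ x := by
  filter_upwards [IsUnifLocDoublingMeasure.ae_tendsto_average.{0} (μ := volume)
    hf.locallyIntegrable 1] with x hx hfin hs
  by_contra hc
  push Not at hc
  obtain ⟨hc1, hc2⟩ := hc
  have h1 : ∀ n : ℕ, ∃ q, Adm κ q ∧ q.2 < lo δ n ∧ mm κ f x - 2⁻¹ ^ n < av f (x + q.1) q.2 := by
    intro n
    have h2 : mx κ f (lo δ n) δ x < mm κ f x :=
      lt_of_le_of_ne (mx_le_mm hf hκ (lo_pos hδ n) (lo_le hδ n) hfin) (hc2 n).symm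
    have h3 : max (mx κ f (lo δ n) δ x) (mm κ f x - 2⁻¹ ^ n) < mm κ f x :=
      max_lt h2 (sub_lt_self _ (by positivity))
    obtain ⟨p, hp, hp1⟩ : ∃ p, Adm κ p ∧
        max (mx κ f (lo δ n) δ x) (mm κ f x - 2⁻¹ ^ n) < av f (x + p.1) p.2 := by
      by_contra hn
      push Not at hn
      exact absurd (mm_le hκ h0 hn) (not_le.2 h3)
    obtain ⟨q, hq, hq1, hq2⟩ := hs p hp _ (half_pos (sub_pos.2 hp1))
    have h4 := le_max_left (mx κ f (lo δ n) δ x) (mm κ f x - 2⁻¹ ^ n)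
    have h5 := le_max_right (mx κ f (lo δ n) δ x) (mm κ f x - 2⁻¹ ^ n)
    refine ⟨q, hq, ?_, by linarith⟩
    by_contra hn
    have := av_le_mx hf hκ (lo_pos hδ n) x (⟨not_lt.1 hn, hq1, hq.2⟩ : q ∈ KK d κ (lo δ n) δ)
    linarith
  choose q hq hq1 hq2 using h1
  have t1 : Tendsto (fun n => (q n).2) atTop (𝓝[>] 0) :=
    tendsto_nhdsWithin_iff.2 ⟨squeeze_zero (fun n => (hq n).1.le) (fun n => (hq1 n).le)
      (lo_tendsto δ), Eventually.of_forall fun n => (hq n).1⟩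
  have t2 := hx (fun n => x + (q n).1) (fun n => (q n).2) t1 (Eventually.of_forall fun n => by
    rw [mem_closedBall, dist_eq_norm, sub_add_cancel_left, norm_neg]
    exact (hq n).2.trans (mul_le_mul_of_nonneg_right hκ1 (hq n).1.le))
  have t3 : Tendsto (fun n => av f (x + (q n).1) (q n).2) atTop (𝓝 (mm κ f x)) := by
    have h6 := tendsto_geo.const_sub (mm κ f x)
    rw [sub_zero] at h6
    exact tendsto_of_tendsto_of_tendsto_of_le_of_le h6 tendsto_const_nhds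
      (fun n => (hq2 n).le) (fun n => le_mm hfin (hq n))
  exact hc1 (tendsto_nhds_unique t3 t2)

/-- Stability for nearly optimal balls with large radius. -/
theorem stab_large (hd : 0 < d) (hκ : 0 ≤ κ) (hδ : 0 < δ) (hW : W11 f g) (h0 : ∀ x, 0 ≤ f x)
    (hfin : MM κ f x ≠ ⊤) {w : E d} (hw : ∀ p, Opt κ f x p → w = av g (x + p.1) p.2) {ε : ℝ}
    (hε : 0 < ε) : ∃ τ > 0, ∀ p, Adm κ p → δ ≤ p.2 → mm κ f x ≤ av f (x + p.1) p.2 + τ →
      ‖av g (x + p.1) p.2 - w‖ ≤ ε := by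
  rcases le_or_gt (mm κ f x) 0 with hm | hm
  · refine ⟨1, one_pos, fun p hp _ _ => ?_⟩
    rw [hw p (opt_of_eq hfin hp (hm.trans (av_nonneg h0 _ _))), sub_self, norm_zero]
    exact hε.le
  obtain ⟨R, hR1, hR2, hR3⟩ := exists_large hd (∫ z, ‖f z‖) (show 0 < mm κ f x / 4 by positivity) δ
  have hK : ∀ p, Adm κ p → δ ≤ p.2 → mm κ f x ≤ av f (x + p.1) p.2 + mm κ f x / 2 →
      p ∈ KK d κ δ R := by
    intro p hp h1 h2
    refine ⟨h1, ?_, hp.2⟩
    by_contra hc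
    have h7 := (le_abs_self _).trans (av_norm_le hW.int (x + p.1) hR2 (not_le.1 hc).le)
    linarith
  rcases lt_or_ge (mx κ f δ R x) (mm κ f x) with hlt | hge
  · refine ⟨min (mm κ f x / 2) ((mm κ f x - mx κ f δ R x) / 2), lt_min (by linarith) (by linarith),
      fun p hp h1 h2 => ?_⟩
    have h3 := hK p hp h1 (h2.trans (by linarith [min_le_left (mm κ f x / 2) ((mm κ f x - mx κ f δ R x) / 2)]))
    have h4 := av_le_mx hW.int hκ hδ x h3
    linarith [min_le_right (mm κ f x / 2) ((mm κ f x - mx κ f δ R x) / 2)]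
  · obtain ⟨τ, hτ, hst⟩ := stab (KK_compact (η := δ) (R := R) hκ) (av_contOn hW.int hδ x)
      (av_contOn hW.gint hδ x) (w := w) (fun p hp hmax => by
        obtain ⟨q, hq, hq1⟩ := mx_attained hW.int hκ hδ hR1 x
        exact (hw p (opt_of_eq hfin (adm_of_KK hδ hp) (hge.trans (hq1 ▸ hmax q hq)))).symm) hε
    refine ⟨min (mm κ f x / 2) τ, lt_min (by linarith) hτ, fun p hp h1 h2 => ?_⟩
    refine hst p (hK p hp h1 (h2.trans (by linarith [min_le_left (mm κ f x / 2) τ]))) fun q hq => ?_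
    linarith [le_mm hfin (adm_of_KK hδ hq), min_le_right (mm κ f x / 2) τ]

theorem one_add_pow_le' {t : ℝ} (h0 : 0 ≤ t) (h1 : t ≤ 1) (n : ℕ) :
    (1 + t) ^ n ≤ 1 + (2 ^ n - 1) * t := by
  induction n with
  | zero => simp
  | succ n ih =>
    have h2 : (1 : ℝ) ≤ 2 ^ n := one_le_pow₀ (by norm_num)
    have h3 := mul_le_mul_of_nonneg_right ih (show 0 ≤ 1 + t by linarith)
    have h4 : (2 ^ n - 1) * (t * t) ≤ (2 ^ n - 1) * t :=
      mul_le_mul_of_nonneg_left (by nlinarith) (by linarith)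
    rw [pow_succ, pow_succ]
    nlinarith

theorem norm_le_of_upper {u : E d → ℝ} {w y : E d} (hu : HasGradientAt u w y) {c r : ℝ}
    (hc : 0 ≤ c) (hr : 0 < r) (h : ∀ v, ‖v‖ ≤ r → u (y + v) ≤ u y + c * ‖v‖) : ‖w‖ ≤ c := by
  have h2 : HasDerivAt (fun t : ℝ => y + t • w) w 0 := by
    simpa using ((hasDerivAt_id (0 : ℝ)).smul_const w).const_add y
  have h3 : HasDerivAt (fun t : ℝ => u (y + t • w)) (‖w‖ ^ 2) 0 := by
    have h4 := HasFDerivAt.comp_hasDerivAt (0 : ℝ) (by simpa using hu.hasFDerivAt :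
      HasFDerivAt u (InnerProductSpace.toDual ℝ (E d) w) (y + (0 : ℝ) • w)) h2
    rwa [InnerProductSpace.toDual_apply_apply, real_inner_self_eq_norm_sq] at h4
  have h5 : ‖w‖ ^ 2 ≤ c * ‖w‖ := by
    refine le_of_tendsto h3.tendsto_slope_zero_right ?_
    have h6 : ∀ᶠ t : ℝ in 𝓝[>] 0, t * ‖w‖ < r := by
      refine nhdsWithin_le_nhds ?_
      exact ContinuousAt.eventually_lt (by fun_prop) continuousAt_const (by simpa using hr)
    filter_upwards [h6, self_mem_nhdsWithin] with t ht ht0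
    have ht1 : 0 < t := ht0
    have h7 := h (t • w) (by rw [norm_smul, Real.norm_of_nonneg ht1.le]; exact ht.le)
    rw [norm_smul, Real.norm_of_nonneg ht1.le] at h7
    simp only [zero_add, zero_smul, add_zero, smul_eq_mul]
    rw [inv_mul_le_iff₀ ht1]
    linarith
  by_contra hn
  have h8 := not_le.1 hn
  nlinarith

/-- At an optimal ball the average of the gradient is at most `2^d / r` times the average. -/
theorem Opt.grad_le (hκ : 0 ≤ κ) (hW : W11 f g) (h0 : ∀ x, 0 ≤ f x) {p : E d × ℝ}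
    (h : Opt κ f x p) : ‖av g (x + p.1) p.2‖ ≤ 2 ^ d / p.2 * av f (x + p.1) p.2 := by
  have hr := h.1.1
  have ha := av_nonneg h0 (x + p.1) p.2
  refine norm_le_of_upper (hW.av_hasGrad hr _) (by positivity) hr fun v hv => ?_
  have hr' : 0 < p.2 + ‖v‖ := by positivity
  have h1 := h.2 (p.1, p.2 + ‖v‖) ⟨hr', h.1.2.trans (mul_le_mul_of_nonneg_left
    (le_add_of_nonneg_right (norm_nonneg _)) hκ)⟩
  have h2 : ∫ z in closedBall (x + p.1 + v) p.2, f z ≤
      ∫ z in closedBall (x + p.1) (p.2 + ‖v‖), f z := by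
    refine setIntegral_mono_set hW.int.integrableOn (ae_of_all _ h0) (LE.le.eventuallyLE ?_)
    refine closedBall_subset_closedBall' ?_
    rw [dist_eq_norm, add_sub_cancel_left]
  have h3 : av f (x + p.1 + v) p.2 ≤ (1 + ‖v‖ / p.2) ^ d * av f (x + p.1) (p.2 + ‖v‖) := by
    rw [av_eq _ _ hr.le, av_eq _ _ hr'.le, smul_eq_mul, smul_eq_mul, ← mul_assoc]
    refine (mul_le_mul_of_nonneg_left h2 (inv_nonneg.2 (vol_pos hr).le)).trans (le_of_eq ?_)
    congr 1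
    have := om_pos (d := d)
    rw [show 1 + ‖v‖ / p.2 = (p.2 + ‖v‖) / p.2 by field_simp, div_pow]
    field_simp
  have h4 := one_add_pow_le' (show 0 ≤ ‖v‖ / p.2 by positivity) ((div_le_one hr).2 hv) d
  have h5 : (1 + ‖v‖ / p.2) ^ d * av f (x + p.1) (p.2 + ‖v‖) ≤
      (1 + 2 ^ d * (‖v‖ / p.2)) * av f (x + p.1) p.2 := by
    refine mul_le_mul (h4.trans ?_) h1 (av_nonneg h0 _ _) (by positivity)
    have : 0 ≤ ‖v‖ / p.2 := by positivity
    linarith
  calc _ ≤ _ := h3.trans h5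
    _ = _ := by ring

/-- An integrable majorant at infinity. -/
noncomputable def tl (x : E d) : ℝ := ((1 + ‖x‖) ^ (d + 1))⁻¹

theorem tl_int : Integrable (tl : E d → ℝ) := by
  have h := integrable_one_add_norm (E := E d) (μ := volume) (r := ((d + 1 : ℕ) : ℝ)) (by
    rw [finrank_euclideanSpace_fin]
    push_cast
    linarith)
  refine h.congr (ae_of_all _ fun x => ?_)
  simp only [tl]
  rw [Real.rpow_neg (by positivity), Real.rpow_natCast]

theorem cut_eq_zero {n : ℕ} {z : E d} (h : 2 * ((n : ℝ) + 1) ≤ ‖z‖) : cut n z = 0 := by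
  apply (cut0 d).zero_of_le_dist
  rw [dist_zero_right, norm_smul, norm_inv, Real.norm_of_nonneg (by positivity),
    le_inv_mul_iff₀ (by positivity)]
  change ((n : ℝ) + 1) * 2 ≤ ‖z‖
  linarith

/-- The tail estimate. -/
theorem tail_bound (hd : 0 < d) (hκ : 0 ≤ κ) (hκ1 : κ ≤ 1) {C : ℝ} (hC : 0 ≤ C)
    (hB : Bnd d κ C) : ∃ A : ℝ, 0 ≤ A ∧ ∀ (f : E d → ℝ) (g G : E d → E d), Dat κ f g G →
      ∀ n : ℕ, ∫ x in (ball (0 : E d) (4 * (n + 1)))ᶜ, ‖G x‖ ≤
        C * (∫ x, (1 - cut n x) * ‖g x‖) + A * (∫ x, ‖f x‖) *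
          (((n : ℝ) + 1)⁻¹ + ∫ x in (ball (0 : E d) (4 * (n + 1)))ᶜ, tl x) := by
  obtain ⟨C0, hC0, hcut⟩ := exists_cut_grad (d := d)
  have hom := om_pos (d := d)
  set A0 : ℝ := 2 ^ d * 8 ^ (d + 1) / om d with hA0
  have hA0' : 0 ≤ A0 := by positivity
  refine ⟨C * C0 + A0, by positivity, fun f g G h n => ?_⟩
  have hn : (0 : ℝ) < n + 1 := by positivity
  have hW := h.w.sub (W11.of_cut h.w.weak (cut_contDiff n) (cut_compact n))
  have hle : ∀ z, f z - cut n z * f z ≤ f z := fun z =>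
    sub_le_self _ (mul_nonneg (cut_nonneg n z) (h.nn z))
  obtain ⟨G', h', hG'⟩ := hB _ _ hW fun z => by
    nlinarith [cut_le_one n z, h.nn z]
  set I := ∫ x, ‖f x‖ with hI
  have hI0 : 0 ≤ I := integral_nonneg fun _ => norm_nonneg _
  have hi1 : Integrable fun x => (1 - cut n x) * ‖g x‖ :=
    h.w.gint.norm.bdd_mul (c := 1)
      (continuous_const.sub (cut_contDiff n).continuous).aestronglyMeasurable
      (ae_of_all _ fun x => abs_le.2 ⟨by linarith [cut_le_one n x], by linarith [cut_nonneg n x]⟩)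
  have h1 : ∫ x, ‖g x - (cut n x • g x + f x • gradient (cut n) x)‖ ≤
      (∫ x, (1 - cut n x) * ‖g x‖) + C0 * ((n : ℝ) + 1)⁻¹ * I := by
    rw [hI, ← integral_const_mul]
    refine int_le_add hW.gint.norm hi1 (h.w.int.norm.const_mul _) fun x => ?_
    rw [show g x - (cut n x • g x + f x • gradient (cut n) x) =
      (1 - cut n x) • g x - f x • gradient (cut n) x by rw [sub_smul, one_smul]; abel]
    refine (norm_sub_le _ _).trans (add_le_add ?_ ?_)
    · rw [norm_smul, Real.norm_of_nonneg (by linarith [cut_le_one n x])]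
    · rw [norm_smul, mul_comm]
      exact mul_le_mul_of_nonneg_right (hcut n x) (norm_nonneg _)
  have h2 : ∀ᵐ x, x ∈ (ball (0 : E d) (4 * (n + 1)))ᶜ → ‖G x‖ ≤ ‖G' x‖ + A0 * I * tl x := by
    filter_upwards [h.formula hκ, h.fin, h'.fin, weak_eq_set h.wk h'.wk] with x f1 f2 f3 f4 hx
    have hx1 : 4 * ((n : ℝ) + 1) ≤ ‖x‖ := by simpa using hx
    have hx2 : 0 < ‖x‖ / 4 := by linarith
    have htl : 0 ≤ A0 * I * tl x := by
      unfold tl
      positivity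
    by_cases hs : Sm κ f (‖x‖ / 4) x
    · rw [f4 (le_antisymm ?_ ?_)]
      · linarith
      · refine mm_le hκ h.nn fun p hp => le_of_forall_pos_le_add fun ε hε => ?_
        obtain ⟨q, hq, hq1, hq2⟩ := hs p hp ε hε
        have h3 : av f (x + q.1) q.2 = av (fun z => f z - cut n z * f z) (x + q.1) q.2 := by
          refine av_congr fun z hz => ?_
          have h4 : ‖q.1‖ ≤ q.2 := hq.2.trans (mul_le_of_le_one_left hq.1.le hκ1)
          have h5 := norm_sub_norm_le (x + q.1) z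
          have h6 := norm_sub_norm_le x (x + q.1)
          rw [sub_add_cancel_left, norm_neg] at h6
          rw [mem_closedBall, dist_comm, dist_eq_norm] at hz
          rw [cut_eq_zero (by linarith), zero_mul, sub_zero]
        linarith [le_mm f3 hq]
      · exact mm_le hκ h'.nn fun p hp => (av_mono hW.int.integrableOn h.w.int.integrableOn
          fun z _ => hle z).trans (le_mm f2 hp)
    · obtain ⟨p, hp, hp1⟩ := exists_opt hd hκ hx2 h.w.int h.nn hs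
      have hs0 : 0 < (1 + ‖x‖) / 8 := by positivity
      have hs1 : (1 + ‖x‖) / 8 ≤ p.2 := by
        have : (0 : ℝ) ≤ n := Nat.cast_nonneg n
        linarith
      have h3 := hp.grad_le hκ h.w h.nn
      have h4 := (le_abs_self _).trans (av_norm_le h.w.int (x + p.1) hs0 hs1)
      have h5 : 2 ^ d / p.2 * av f (x + p.1) p.2 ≤
          2 ^ d / ((1 + ‖x‖) / 8) * ((((1 + ‖x‖) / 8) ^ d * om d)⁻¹ * I) :=
        mul_le_mul (div_le_div_of_nonneg_left (by positivity) hs0 hs1) h4 (av_nonneg h.nn _ _)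
          (by positivity)
      have h6 : 2 ^ d / ((1 + ‖x‖) / 8) * ((((1 + ‖x‖) / 8) ^ d * om d)⁻¹ * I) =
          A0 * I * tl x := by
        rw [hA0, tl, div_pow, pow_succ, pow_succ]
        field_simp
      rw [f1 p hp]
      linarith [norm_nonneg (G' x)]
  have hms : MeasurableSet (ball (0 : E d) (4 * (n + 1)))ᶜ := measurableSet_ball.compl
  have h7 : ∫ x in (ball (0 : E d) (4 * (n + 1)))ᶜ, ‖G x‖ ≤
      (∫ x in (ball (0 : E d) (4 * (n + 1)))ᶜ, ‖G' x‖) +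
        A0 * I * ∫ x in (ball (0 : E d) (4 * (n + 1)))ᶜ, tl x := by
    rw [← integral_const_mul, ← integral_add h'.gi.norm.integrableOn
      (tl_int.const_mul _).integrableOn]
    exact integral_mono_ae h.gi.norm.integrableOn
      (iadd h'.gi.norm (tl_int.const_mul _)).integrableOn ((ae_restrict_iff' hms).2 h2)
  have h8 := setIntegral_le_integral (s := (ball (0 : E d) (4 * (n + 1)))ᶜ) h'.gi.norm
    (ae_of_all _ fun _ => norm_nonneg _)
  have h9 := mul_le_mul_of_nonneg_left h1 hC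
  have h10 : 0 ≤ ∫ x in (ball (0 : E d) (4 * (n + 1)))ᶜ, tl x :=
    integral_nonneg fun x => by
      unfold tl
      positivity
  have h11 : 0 ≤ C * C0 * I * ∫ x in (ball (0 : E d) (4 * (n + 1)))ᶜ, tl x := by positivity
  have h12 : 0 ≤ A0 * I * ((n : ℝ) + 1)⁻¹ := by positivity
  nlinarith

end Vale.Agent.N137
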