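import Vale.Agent.N137.Pt

/-!
# Small radii: local comparison with an affine function
-/

open MeasureTheory Set Filter Topology Metric
open scoped ENNReal NNReal ContDiff

namespace Vale.Agent.N137

open Vale.Agent.P137 Vale.Agent.P137.U

variable {d : ℕ} {κ δ : ℝ} {f : E d → ℝ} {g G : E d → E d} {x : E d}

theorem Core.real {C : ℝ≥0} (hC : Core d κ C) (hκ : 0 ≤ κ) (h : W11 f g) (hδ : 0 < δ) (n : ℕ) :
    Integrable (gradient (mx κ f (lo δ n) δ)) ∧
      ∫ x, ‖gradient (mx κ f (lo δ n) δ) x‖ ≤ C * ∫ x, ‖g x‖ := by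
  have h1 := hC.w11 hκ h (lo_pos hδ n) n
  rw [lo_mul] at h1
  have h2 : Integrable (gradient (mx κ f (lo δ n) δ)) :=
    ⟨(measurable_grad _).aestronglyMeasurable,
      h1.trans_lt (ENNReal.mul_lt_top ENNReal.coe_lt_top h.gint.2)⟩
  refine ⟨h2, ?_⟩
  rw [← ofReal_integral_norm_eq_lintegral_enorm h2, ← ofReal_integral_norm_eq_lintegral_enorm
    h.gint, ← ENNReal.ofReal_coe_nnreal, ← ENNReal.ofReal_mul C.coe_nonneg] at h1
  exact (ENNReal.ofReal_le_ofReal_iff (mul_nonneg C.2 (integral_nonneg fun _ => norm_nonneg _))).1 h1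

/-- A cutoff function, `1` on the ball of radius `ρ` about `y`, `0` outside the double ball. -/
noncomputable def ct (y : E d) (ρ : ℝ) (z : E d) : ℝ := cut0 d (ρ⁻¹ • (z - y))

theorem ct_contDiff (y : E d) (ρ : ℝ) : ContDiff ℝ ∞ (ct y ρ) :=
  (cut0 d).contDiff.comp ((contDiff_id.sub contDiff_const).const_smul _)

theorem ct_nonneg (y : E d) (ρ : ℝ) (z : E d) : 0 ≤ ct y ρ z := (cut0 d).nonneg

theorem ct_le_one (y : E d) (ρ : ℝ) (z : E d) : ct y ρ z ≤ 1 := (cut0 d).le_one

theorem ct_one {y z : E d} {ρ : ℝ} (hρ : 0 < ρ) (h : z ∈ closedBall y ρ) : ct y ρ z = 1 := by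
  apply (cut0 d).one_of_mem_closedBall
  rw [mem_closedBall, dist_zero_right, norm_smul, norm_inv, Real.norm_of_nonneg hρ.le,
    inv_mul_le_iff₀ hρ]
  change ‖z - y‖ ≤ ρ * 1
  rw [mul_one, ← dist_eq_norm]
  exact h

theorem ct_zero {y z : E d} {ρ : ℝ} (hρ : 0 < ρ) (h : 2 * ρ ≤ dist z y) : ct y ρ z = 0 := by
  apply (cut0 d).zero_of_le_dist
  rw [dist_zero_right, norm_smul, norm_inv, Real.norm_of_nonneg hρ.le, le_inv_mul_iff₀ hρ,
    ← dist_eq_norm]
  change ρ * 2 ≤ dist z y
  linarith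

theorem compact_of_zero {u : E d → ℝ} {y : E d} {R : ℝ} (h : ∀ z, R < dist z y → u z = 0) :
    HasCompactSupport u :=
  HasCompactSupport.intro (isCompact_closedBall y R) fun z hz => h z (not_le.1 hz)

theorem grad_zero_of {u : E d → ℝ} {y z : E d} {R : ℝ} (h : ∀ z, R < dist z y → u z = 0)
    (hz : R < dist z y) : gradient u z = 0 := by
  have h1 : u =ᶠ[𝓝 z] fun _ => 0 := by
    filter_upwards [continuousAt_const.eventually_lt (by fun_prop : ContinuousAt
      (fun z => dist z y) z) hz] with w hw using h w hw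
  rw [h1.gradient_eq, gradient_fun_const]

theorem exists_ct_grad : ∃ C0 : ℝ, 0 ≤ C0 ∧ ∀ (y : E d) (ρ : ℝ), 0 < ρ → ∀ z,
    ‖gradient (ct y ρ) z‖ ≤ C0 / ρ := by
  obtain ⟨L, hL⟩ : ∃ L, LipschitzWith L (cut0 d) :=
    ContDiff.lipschitzWith_of_hasCompactSupport (cut0 d).hasCompactSupport
      ((cut0 d).contDiff (n := 1)) (by simp)
  refine ⟨L, L.2, fun y ρ hρ z => ?_⟩
  rw [norm_grad]
  refine norm_fderiv_le_of_lip' ℝ (div_nonneg L.2 hρ.le) (Eventually.of_forall fun w => ?_)
  refine (hL.norm_sub_le _ _).trans (le_of_eq ?_)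
  rw [← smul_sub, norm_smul, norm_inv, Real.norm_of_nonneg hρ.le, sub_sub_sub_cancel_right]
  ring

theorem grad_mul {u v : E d → ℝ} (hu : DifferentiableAt ℝ u x) (hv : DifferentiableAt ℝ v x) :
    gradient (fun z => u z * v z) x = u x • gradient v x + v x • gradient u x := by
  unfold gradient
  rw [fderiv_fun_mul hu hv, map_add, map_smul, map_smul]

theorem slab_at (hd : 0 < d) {u : E d → ℝ} {L : ℝ≥0} (hu : LipschitzWith L u)
    (hc : HasCompactSupport u) (h0 : ∀ x, 0 ≤ u x) (y : E d) {R : ℝ} (hR : 0 < R) :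
    ∫ x in closedBall y R, u x ≤ 2 * R * ∫ x, ‖gradient u x‖ := by
  have hW := W11.of_lip hu hc
  have h1 := slab_bound hd (fun z => u (y + z)) L (by
      simpa [Function.comp_def] using hu.comp (isometry_add_left y).lipschitz)
    (hc.comp_homeomorph (Homeomorph.addLeft y)) (fun _ => h0 _) (2 * R) (by positivity)
  have h2 : ∫⁻ x, ‖fderiv ℝ (fun z => u (y + z)) x‖ₑ = ∫⁻ x, ‖gradient u x‖ₑ := by
    simp only [fderiv_comp_add_left, fa_enorm_gradient]
    exact lintegral_add_left_eq_self (fun x => ‖fderiv ℝ u x‖ₑ) y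
  have h3 : ∫⁻ x in closedBall y R, ‖u x‖ₑ ≤ ∫⁻ x in ball (0 : E d) (2 * R), ‖u (y + x)‖ₑ := by
    rw [← (measurePreserving_add_left (volume : Measure (E d)) y).setLIntegral_comp_preimage_emb
      (MeasurableEquiv.addLeft y).measurableEmbedding]
    refine lintegral_mono_set fun z hz => ?_
    simp only [mem_preimage, mem_closedBall, dist_self_add_left] at hz
    rw [mem_ball_zero_iff]
    linarith
  have h4 := h3.trans h1
  rw [h2, ← ofReal_integral_norm_eq_lintegral_enorm hW.gint,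
    ← ofReal_integral_norm_eq_lintegral_enorm hW.int.integrableOn,
    ← ENNReal.ofReal_mul (by positivity), ENNReal.ofReal_le_ofReal_iff (mul_nonneg (by positivity)
      (integral_nonneg fun _ => norm_nonneg _))] at h4
  simpa only [Real.norm_of_nonneg (h0 _)] using h4

/-- The error of the affine approximation on the ball of radius `9 δ`. -/
noncomputable def lam (f : E d → ℝ) (g : E d → E d) (δ : ℝ) (y : E d) (b : ℝ) (a : E d) : ℝ :=
  (∫ z in closedBall y (9 * δ), ‖g z - a‖) + δ⁻¹ * ∫ z in closedBall y (9 * δ), |f z - aff y b a z|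

/-- The points where radii in `[lo δ n, δ]` give the whole maximal function. -/
def TT (κ : ℝ) (f : E d → ℝ) (δ : ℝ) (n : ℕ) : Set (E d) :=
  {x | MM κ f x ≤ ENNReal.ofReal (mx κ f (lo δ n) δ x)}

/-- The local estimate for small radii. -/
def LS (d : ℕ) (κ C : ℝ) : Prop := ∀ (f : E d → ℝ) (g : E d → E d), W11 f g → (∀ x, 0 ≤ f x) →
  ∀ δ : ℝ, 0 < δ → ∀ (n : ℕ) (y : E d) (b : ℝ) (a : E d),
    ∫ x in TT κ f δ n ∩ ball y δ, ‖gradient (mx κ f (lo δ n) δ) x - a‖ ≤ C * lam f g δ y b a

theorem measurable_MM (hf : Integrable f) : Measurable (MM κ f) := by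
  have h0 : ∀ p : E d × ℝ, Adm κ p → Continuous fun x : E d => av f (x + p.1) p.2 := by
    intro p hp
    refine continuous_iff_continuousAt.2 fun x => ?_
    have h1 : ContinuousAt (fun x : E d => (x + p.1, p.2)) x := by fun_prop
    have h3 := ContinuousAt.comp_of_eq (av_contAt hf (p := (x + p.1, p.2)) hp.1) h1 rfl
    simpa only [Function.comp_def] using h3
  have h2 : LowerSemicontinuous fun x : E d =>
      ⨆ (p : E d × ℝ) (_ : Adm κ p), ENNReal.ofReal (av f (x + p.1) p.2) :=
    lowerSemicontinuous_iSup fun p => lowerSemicontinuous_iSup fun hp =>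
      (ENNReal.continuous_ofReal.comp (h0 p hp)).lowerSemicontinuous
  exact h2.measurable

theorem measurableSet_TT (hκ : 0 ≤ κ) (h : W11 f g) (hδ : 0 < δ) (n : ℕ) :
    MeasurableSet (TT κ f δ n) := by
  obtain ⟨L, hL⟩ := mx_lip h hκ (lo_pos hδ n) (lo_le hδ n)
  exact measurableSet_le (measurable_MM h.int) hL.continuous.measurable.ennreal_ofReal

theorem KK_sub (hκ1 : κ ≤ 1) {η : ℝ} (hη : 0 < η) {y z : E d} (hz : z ∈ ball y δ) {p : E d × ℝ}
    (hp : p ∈ KK d κ η δ) : closedBall (z + p.1) p.2 ⊆ closedBall y (3 * δ) := by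
  refine closedBall_subset_closedBall' ?_
  have h1 : ‖p.1‖ ≤ p.2 := hp.2.2.trans (mul_le_of_le_one_left (hη.le.trans hp.1) hκ1)
  have h2 := dist_triangle (z + p.1) z y
  rw [dist_self_add_left] at h2
  linarith [mem_ball.1 hz, hp.2.1]

/-- The localised difference with the affine function. -/
theorem exists_loc : ∃ C0 : ℝ, 0 ≤ C0 ∧ ∀ (f : E d → ℝ) (g : E d → E d), W11 f g →
    ∀ δ : ℝ, 0 < δ → ∀ (y : E d) (b : ℝ) (a : E d), ∃ (k : E d → ℝ) (Γ : E d → E d), W11 k Γ ∧
      ∫ z, ‖Γ z‖ ≤ C0 * lam f g δ y b a ∧ (∀ z ∈ closedBall y (3 * δ), k z = f z - aff y b a z) ∧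
      ∀ z, 6 * δ < dist z y → k z = 0 := by
  obtain ⟨C0, hC0, hct⟩ := exists_ct_grad (d := d)
  refine ⟨1 + C0, by positivity, fun f g h δ hδ y b a => ?_⟩
  have h3 : 0 < 3 * δ := by positivity
  have hz : ∀ z, 6 * δ < dist z y → ct y (3 * δ) z = 0 := fun z hz => ct_zero h3 (by linarith)
  have hwa : IsWeakGradient (aff y b a) fun _ => a := by
    have hl : LipschitzWith ‖a‖₊ (aff y b a) := LipschitzWith.of_dist_le_mul fun z w => by
      rw [Real.dist_eq, dist_eq_norm]
      exact aff_abs y b a z w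
    have := weak_lip hl
    rwa [show gradient (aff y b a) = fun _ => a from
      funext fun z => (aff_hasGrad y b a z).gradient] at this
  have hW := W11.of_cut (weak_sub h.weak hwa) (ct_contDiff y (3 * δ)) (compact_of_zero hz)
  refine ⟨_, _, hW, ?_, fun z hz => by rw [ct_one h3 hz, one_mul],
    fun z hz1 => by rw [hz z hz1, zero_mul]⟩
  have i1 : IntegrableOn (fun z => ‖g z - a‖) (closedBall y (9 * δ)) :=
    (isub h.gint.integrableOn (integrableOn_const measure_closedBall_lt_top.ne)).norm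
  have i2 : IntegrableOn (fun z => |f z - aff y b a z|) (closedBall y (9 * δ)) :=
    (isub h.int.integrableOn (aff_intOn y b a y _)).abs
  rw [← setIntegral_eq_integral_of_forall_compl_eq_zero (s := closedBall y (9 * δ)) (fun z hz1 => by
    have h4 : 6 * δ < dist z y := by
      rw [mem_closedBall, not_le] at hz1
      linarith
    rw [hz z h4, grad_zero_of hz h4, zero_smul, smul_zero, add_zero, norm_zero])]
  have h5 := int_le_add hW.gint.norm.integrableOn i1 (i2.const_mul (C0 * δ⁻¹)) fun z => by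
    refine (norm_add_le _ _).trans (add_le_add ?_ ?_)
    · rw [norm_smul, Real.norm_of_nonneg (ct_nonneg _ _ _)]
      exact mul_le_of_le_one_left (norm_nonneg _) (ct_le_one _ _ _)
    · rw [norm_smul, mul_comm]
      refine mul_le_mul_of_nonneg_right ((hct y _ h3 z).trans ?_) (abs_nonneg _)
      rw [← div_eq_mul_inv]
      exact div_le_div_of_nonneg_left hC0 hδ (by linarith)
  rw [integral_const_mul] at h5
  refine h5.trans ?_
  have p1 : 0 ≤ ∫ z in closedBall y (9 * δ), ‖g z - a‖ := integral_nonneg fun _ => norm_nonneg _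
  have p2 : 0 ≤ δ⁻¹ * ∫ z in closedBall y (9 * δ), |f z - aff y b a z| :=
    mul_nonneg (inv_nonneg.2 hδ.le) (integral_nonneg fun _ => abs_nonneg _)
  unfold lam
  nlinarith

theorem av_split (hf : Integrable f) {k : E d → ℝ} {y w : E d} {b r : ℝ} {a : E d}
    (hr : 0 < r) (h : ∀ z ∈ closedBall w r, k z = f z - aff y b a z) :
    av f w r = aff y b a w + av k w r := by
  rw [av_congr h, av_sub hf.integrableOn (aff_intOn y b a w r), av_aff y b a w hr]
  ring

/-- The centred operator: affine functions are reproduced. -/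
theorem ls_centered {C : ℝ≥0} (hC : Core d 0 C) : ∃ C1 : ℝ, 0 ≤ C1 ∧ LS d 0 C1 := by
  obtain ⟨C0, hC0, hloc⟩ := exists_loc (d := d)
  refine ⟨C * C0, mul_nonneg C.2 hC0, fun f g h h0 δ hδ n y b a => ?_⟩
  obtain ⟨k, Γ, hk, hΓ, hk1, -⟩ := hloc f g h δ hδ y b a
  have hη := lo_pos hδ n
  have hR := lo_le hδ n
  obtain ⟨i1, i2⟩ := hC.real le_rfl hk hδ n
  have h1 : ∀ z ∈ ball y δ, mx 0 f (lo δ n) δ z = aff y b a z + mx 0 k (lo δ n) δ z := by
    intro z hz
    have h2 : ∀ p ∈ KK d 0 (lo δ n) δ,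
        av f (z + p.1) p.2 = aff y b a z + av k (z + p.1) p.2 := by
      intro p hp
      have h3 : p.1 = 0 := by simpa using hp.2.2
      rw [av_split h.int (hη.trans_le hp.1) fun w hw => hk1 w (KK_sub zero_le_one hη hz hp hw), h3,
        add_zero]
    obtain ⟨p, hp, hp1⟩ := mx_attained h.int le_rfl hη hR z
    obtain ⟨q, hq, hq1⟩ := mx_attained hk.int le_rfl hη hR z
    have h4 := av_le_mx hk.int le_rfl hη z hp
    have h5 := av_le_mx h.int le_rfl hη z hq
    linarith [h2 p hp, h2 q hq]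
  obtain ⟨L, hL⟩ := mx_lip hk le_rfl hη hR
  have hms := (measurableSet_TT le_rfl h hδ n).inter (measurableSet_ball (x := y) (ε := δ))
  have h6 : ∫ x in TT 0 f δ n ∩ ball y δ, ‖gradient (mx 0 f (lo δ n) δ) x - a‖ =
      ∫ x in TT 0 f δ n ∩ ball y δ, ‖gradient (mx 0 k (lo δ n) δ) x‖ := by
    refine setIntegral_congr_ae hms ?_
    filter_upwards [hL.ae_differentiableAt (μ := volume)] with x hx hx1
    have h7 : mx 0 f (lo δ n) δ =ᶠ[𝓝 x] fun z => aff y b a z + mx 0 k (lo δ n) δ z := by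
      filter_upwards [isOpen_ball.mem_nhds hx1.2] with z hz using h1 z hz
    have h8 : gradient (fun z => aff y b a z + mx 0 k (lo δ n) δ z) x =
        a + gradient (mx 0 k (lo δ n) δ) x := by
      have h9 := (aff_hasGrad y b a x).hasFDerivAt.add hx.hasGradientAt.hasFDerivAt
      rw [← map_add] at h9
      exact (hasGradientAt_iff_hasFDerivAt.2 h9).gradient
    rw [h7.gradient_eq, h8, add_sub_cancel_left]
  rw [h6, mul_assoc]
  exact (setIntegral_le_integral i1.norm (ae_of_all _ fun _ => norm_nonneg _)).trans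
    (i2.trans (mul_le_mul_of_nonneg_left hΓ C.2))

theorem grad_le_of_dom {u w : E d → ℝ} {c : ℝ} (hc : 0 ≤ c)
    (h : ∀ z, |u z - u x| ≤ c * |w z - w x|) (hw : DifferentiableAt ℝ w x) :
    ‖gradient u x‖ ≤ c * ‖gradient w x‖ := by
  rw [norm_grad, norm_grad]
  have h1 : ∀ C', ‖fderiv ℝ w x‖ < C' → ‖fderiv ℝ u x‖ ≤ c * C' := by
    intro C' hC'
    refine norm_fderiv_le_of_lip' ℝ (mul_nonneg hc ((norm_nonneg _).trans hC'.le)) ?_
    have h2 := (Asymptotics.isLittleO_iff.1 hw.hasFDerivAt.isLittleO) (sub_pos.2 hC')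
    filter_upwards [h2] with z hz
    have h3 := (fderiv ℝ w x).le_opNorm (z - x)
    have h4 : |w z - w x| ≤ C' * ‖z - x‖ := by
      have h5 := norm_le_norm_add_norm_sub' (w z - w x) (fderiv ℝ w x (z - x))
      rw [Real.norm_eq_abs] at h5
      linarith
    rw [mul_assoc]
    exact (h z).trans (mul_le_mul_of_nonneg_left h4 hc)
  have h6 : Tendsto (fun C' => c * C') (𝓝[>] ‖fderiv ℝ w x‖) (𝓝 (c * ‖fderiv ℝ w x‖)) :=
    ((continuous_const.mul continuous_id).tendsto _).mono_left nhdsWithin_le_nhds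
  exact ge_of_tendsto h6 (eventually_nhdsWithin_of_forall h1)

/-- The uncentred operator: a cutoff which is `1` on all small optimal balls. -/
theorem exists_chi {C : ℝ≥0} (hC : Core d 1 C) : ∃ C2 : ℝ, 0 ≤ C2 ∧
    ∀ (f : E d → ℝ) (g : E d → E d), W11 f g → (∀ x, 0 ≤ f x) → ∀ δ : ℝ, 0 < δ →
    ∀ (n : ℕ) (y : E d) (b : ℝ) (a : E d), ∃ (χ : E d → ℝ) (L : ℝ≥0), LipschitzWith L χ ∧
      HasCompactSupport χ ∧ (∀ z, 0 ≤ χ z) ∧ (∀ z, χ z ≤ 1) ∧
      δ * ‖a‖ * ∫ z, ‖gradient χ z‖ ≤ C2 * lam f g δ y b a ∧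
      ∀ x ∈ TT 1 f δ n ∩ ball y δ, ∀ p ∈ KK d 1 (lo δ n) δ,
        mx 1 f (lo δ n) δ x ≤ av f (x + p.1) p.2 → ∀ z ∈ closedBall (x + p.1) p.2, χ z = 1 := by
  obtain ⟨C0, hC0, hloc⟩ := exists_loc (d := d)
  obtain ⟨C1, hC1, hct⟩ := exists_ct_grad (d := d)
  have hCC : 0 ≤ (C : ℝ) * C0 := mul_nonneg C.2 hC0
  refine ⟨C * C0 + C1 * 2 ^ d, by positivity, fun f g h h0 δ hδ n y b a => ?_⟩
  have hη := lo_pos hδ n
  have hR := lo_le hδ n
  have h3 : 0 < 3 * δ := by positivity
  have hom := om_pos (d := d)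
  set H := ∫ z in closedBall y (9 * δ), |f z - aff y b a z| with hH
  have p1 : 0 ≤ ∫ z in closedBall y (9 * δ), ‖g z - a‖ := integral_nonneg fun _ => norm_nonneg _
  have p2 : 0 ≤ H := integral_nonneg fun _ => abs_nonneg _
  have p3 : δ⁻¹ * H ≤ lam f g δ y b a := le_add_of_nonneg_left p1
  have p4 : 0 ≤ lam f g δ y b a := le_trans (by positivity) p3
  rcases le_or_gt (‖a‖ * δ * ((4 * δ) ^ d * om d)) H with hA | hB
  · have hz : ∀ z, 6 * δ < dist z y → ct y (3 * δ) z = 0 := fun z hz => ct_zero h3 (by linarith)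
    obtain ⟨L, hL⟩ : ∃ L, LipschitzWith L (ct y (3 * δ)) :=
      ContDiff.lipschitzWith_of_hasCompactSupport (compact_of_zero hz) (ct_contDiff _ _) (by simp)
    refine ⟨_, L, hL, compact_of_zero hz, ct_nonneg _ _, ct_le_one _ _, ?_,
      fun x hx p hp _ z hz1 => ct_one h3 (KK_sub le_rfl hη hx.2 hp hz1)⟩
    have h4 : ∫ z, ‖gradient (ct y (3 * δ)) z‖ ≤ C1 / (3 * δ) * ((6 * δ) ^ d * om d) := by
      rw [← setIntegral_eq_integral_of_forall_compl_eq_zero (s := closedBall y (6 * δ))
        (fun z hz1 => by rw [grad_zero_of hz (not_le.1 hz1), norm_zero])]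
      have h5 := norm_setIntegral_le_of_norm_le_const (μ := volume) (s := closedBall y (6 * δ))
        (f := fun z => ‖gradient (ct y (3 * δ)) z‖) (C := C1 / (3 * δ)) measure_closedBall_lt_top
        fun z _ => by
          rw [norm_norm]
          exact hct y _ h3 z
      rw [tt_real_closedBall _ (by positivity)] at h5
      exact (le_abs_self _).trans h5
    have h6 : (6 * δ) ^ d ≤ 2 ^ d * (4 * δ) ^ d := by
      rw [← mul_pow]
      exact pow_le_pow_left₀ (by positivity) (by linarith) d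
    calc δ * ‖a‖ * ∫ z, ‖gradient (ct y (3 * δ)) z‖
        ≤ δ * ‖a‖ * (C1 / (3 * δ) * ((2 ^ d * (4 * δ) ^ d) * om d)) := by
          refine mul_le_mul_of_nonneg_left (h4.trans ?_) (by positivity)
          gcongr
      _ = C1 * 2 ^ d * (δ⁻¹ * (‖a‖ * δ * ((4 * δ) ^ d * om d))) / 3 := by
          field_simp
      _ ≤ C1 * 2 ^ d * lam f g δ y b a / 1 := by
          gcongr
          · exact le_trans (by gcongr) p3
          · norm_num
      _ ≤ _ := by nlinarith
  · obtain ⟨k, Γ, hk, hΓ, hk1, hk2⟩ := hloc f g h δ hδ y b a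
    have hV := vol_pos (d := d) (show 0 < 4 * δ by positivity)
    have hs : 0 < ‖a‖ * δ := (mul_pos_iff_of_pos_right hV).1 (p2.trans_lt hB)
    have ha : 0 < ‖a‖ := (mul_pos_iff_of_pos_right hδ).1 hs
    set s := ‖a‖ * δ with hsdef
    set w := mx 1 k (lo δ n) δ with hw
    obtain ⟨L, hL⟩ := mx_lip hk zero_le_one hη hR
    obtain ⟨i1, i2⟩ := hC.real zero_le_one hk hδ n
    let χ : E d → ℝ := fun z => max 0 (min 1 (w z / s - 1))
    have hdom : ∀ z x, |χ z - χ x| ≤ s⁻¹ * |w z - w x| := by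
      intro z x
      refine (abs_max_sub_max_le_max _ _ _ _).trans (max_le (by simp; positivity) ?_)
      refine (abs_min_sub_min_le_max _ _ _ _).trans (max_le (by simp; positivity) (le_of_eq ?_))
      rw [sub_sub_sub_cancel_right, ← sub_div, abs_div, abs_of_pos hs, div_eq_inv_mul]
    have hχ : LipschitzWith (s⁻¹.toNNReal * L) χ := LipschitzWith.of_dist_le_mul fun z x => by
      refine (hdom z x).trans ?_
      rw [NNReal.coe_mul, Real.coe_toNNReal _ (by positivity), mul_assoc]
      exact mul_le_mul_of_nonneg_left (hL.dist_le_mul z x) (by positivity)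
    have hχc : HasCompactSupport χ := by
      refine compact_of_zero (y := y) (R := 8 * δ) fun z hz => ?_
      obtain ⟨p, hp, hp1⟩ := mx_attained hk.int zero_le_one hη hR z
      have h4 : av k (z + p.1) p.2 = av (fun _ => (0 : ℝ)) (z + p.1) p.2 := by
        refine av_congr fun v hv => hk2 v ?_
        have h5 := dist_triangle4 z (z + p.1) v y
        rw [dist_self_add_right, dist_comm (z + p.1) v] at h5
        linarith [mem_closedBall.1 hv, hp.2.1, hp.2.2]
      rw [av_const _ _ (hη.trans_le hp.1), hp1] at h4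
      simp only [χ, show w z = 0 from h4]
      norm_num
    refine ⟨χ, _, hχ, hχc, fun z => le_max_left _ _,
      fun z => max_le zero_le_one (min_le_left _ _), ?_, fun x hx p hp hm z hz => ?_⟩
    · have h4 : ∫ z, ‖gradient χ z‖ ≤ s⁻¹ * ∫ z, ‖gradient w z‖ := by
        rw [← integral_const_mul]
        refine integral_mono_ae (W11.of_lip hχ hχc).gint.norm (i1.norm.const_mul _) ?_
        filter_upwards [hL.ae_differentiableAt (μ := volume)] with z hz
        exact grad_le_of_dom (by positivity) (fun v => hdom v z) hz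
      have h5 := i2.trans (mul_le_mul_of_nonneg_left hΓ C.2)
      rw [← div_eq_inv_mul, le_div_iff₀ hs] at h4
      have h6 : 0 ≤ C1 * 2 ^ d * lam f g δ y b a := by positivity
      have h7 : δ * ‖a‖ * ∫ z, ‖gradient χ z‖ = (∫ z, ‖gradient χ z‖) * s := by
        rw [hsdef]
        ring
      rw [h7]
      nlinarith
    · have hr : 0 < p.2 := hη.trans_le hp.1
      set v : E d := (4 * δ / ‖a‖) • a with hv
      have hvn : ‖v‖ = 4 * δ := by
        rw [hv, norm_smul, Real.norm_of_nonneg (by positivity), div_mul_cancel₀ _ ha.ne']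
      have e1 : av f (x + v) (4 * δ) ≤ mx 1 f (lo δ n) δ x := by
        have h4 : ENNReal.ofReal (av f (x + v) (4 * δ)) ≤ MM 1 f x :=
          le_iSup₂_of_le (v, 4 * δ) ⟨by positivity, by simp [hvn]⟩ le_rfl
        refine (ENNReal.ofReal_le_ofReal_iff ?_).1 (h4.trans hx.1)
        exact (av_nonneg h0 _ _).trans (av_le_mx h.int zero_le_one hη x hp)
      have e2 := av_split (k := fun z => f z - aff y b a z) (y := y) (w := x + v) (b := b) (a := a)
        h.int (show 0 < 4 * δ by positivity) fun _ _ => rfl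
      have e3 : ‖av (fun z => f z - aff y b a z) (x + v) (4 * δ)‖ ≤
          ((4 * δ) ^ d * om d)⁻¹ * H := by
        refine av_norm_le_on (by positivity) le_rfl (setIntegral_mono_set
          (isub h.int.integrableOn (aff_intOn y b a y _)).abs (ae_of_all _ fun _ => abs_nonneg _)
          (LE.le.eventuallyLE (closedBall_subset_closedBall' ?_)))
        have h5 := dist_triangle (x + v) x y
        rw [dist_self_add_left, hvn] at h5
        linarith [mem_ball.1 hx.2]
      have e4 : ((4 * δ) ^ d * om d)⁻¹ * H ≤ s := by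
        rw [inv_mul_le_iff₀ hV]
        linarith
      have e5 : aff y b a (x + v) - aff y b a x = 4 * s := by
        rw [aff_sub, add_sub_cancel_left, hv, inner_smul_right, real_inner_self_eq_norm_sq, hsdef]
        field_simp
      have e6 : aff y b a (x + p.1) - aff y b a x ≤ s := by
        refine (le_abs_self _).trans ((aff_abs y b a _ _).trans ?_)
        rw [add_sub_cancel_left]
        exact mul_le_mul_of_nonneg_left (by linarith [hp.2.1, hp.2.2]) ha.le
      have e7 := av_split h.int hr fun w hw => hk1 w (KK_sub le_rfl hη hx.2 hp hw)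
      have e8 := av_le_mx hk.int zero_le_one hη z
        (show (x + p.1 - z, p.2) ∈ KK d 1 (lo δ n) δ from ⟨hp.1, hp.2.1, by
          rw [one_mul, ← dist_eq_norm, dist_comm]
          exact hz⟩)
      simp only [add_sub_cancel] at e8
      have e9 : 2 * s ≤ w z := by
        have := (abs_le.1 (e3.trans e4)).1
        linarith
      have e10 : 1 ≤ w z / s - 1 := by
        rw [le_sub_iff_add_le, le_div_iff₀ hs]
        linarith
      simp only [χ, min_eq_left e10]
      norm_num

/-- The uncentred operator: the function is lowered outside the small optimal balls. -/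
theorem ls_uncentered (hd : 0 < d) {C : ℝ≥0} (hC : Core d 1 C) :
    ∃ C1 : ℝ, 0 ≤ C1 ∧ LS d 1 C1 := by
  obtain ⟨C0, hC0, hloc⟩ := exists_loc (d := d)
  obtain ⟨C1, hC1, hct⟩ := exists_ct_grad (d := d)
  obtain ⟨C2, hC2, hchi⟩ := exists_chi hC
  have hC' : (0 : ℝ) ≤ C := C.2
  refine ⟨C * (C0 + 9 * C2 + (1 + 3 * C1) * 12 * C2) + 12 * C2, by positivity,
    fun f g h h0 δ hδ n y b a => ?_⟩
  obtain ⟨k, Γ, hk, hΓ, hk1, -⟩ := hloc f g h δ hδ y b a
  obtain ⟨χ, L, hχ, hχc, hχ0, hχ1, hN, hone⟩ := hchi f g h h0 δ hδ n y b a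
  have hη := lo_pos hδ n
  have hR := lo_le hδ n
  have h3 : 0 < 3 * δ := by positivity
  set c := b - 3 * δ * ‖a‖ with hc
  have hz : ∀ z, 6 * δ < dist z y → ct y (3 * δ) z = 0 := fun z hz => ct_zero h3 (by linarith)
  let m : E d → ℝ := fun z => ct y (3 * δ) z * (aff y b a z - c)
  have hm0 : ∀ z, 6 * δ < dist z y → m z = 0 := fun z hz1 => by simp only [m, hz z hz1, zero_mul]
  have hms : ContDiff ℝ ∞ m := (ct_contDiff _ _).mul ((aff_contDiff y b a).sub contDiff_const)
  have haf : ∀ z, |aff y b a z - b| ≤ ‖a‖ * dist z y := fun z => by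
    have := aff_abs y b a z y
    rwa [show aff y b a y = b by simp [aff], ← dist_eq_norm] at this
  have hac : ∀ z, dist z y ≤ 6 * δ → |aff y b a z - c| ≤ 9 * (δ * ‖a‖) := fun z hz1 => by
    have h4 := abs_le.1 ((haf z).trans (mul_le_mul_of_nonneg_left hz1 (norm_nonneg a)))
    have h5 : 0 ≤ δ * ‖a‖ := by positivity
    exact abs_le.2 ⟨by linarith [h4.1], by linarith [h4.2]⟩
  have hm1 : ∀ z, |m z| ≤ 9 * (δ * ‖a‖) := fun z => by
    rcases le_or_gt (dist z y) (6 * δ) with hz1 | hz1
    · simp only [m, abs_mul, abs_of_nonneg (ct_nonneg _ _ _)]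
      exact (mul_le_of_le_one_left (abs_nonneg _) (ct_le_one _ _ _)).trans (hac z hz1)
    · rw [hm0 z hz1, abs_zero]
      positivity
  have hm2 : ∀ z, dist z y ≤ 6 * δ → ‖gradient m z‖ ≤ (1 + 3 * C1) * ‖a‖ := fun z hz1 => by
    have hg : HasGradientAt (fun z => aff y b a z - c) a z :=
      (aff_hasGrad y b a z).hasFDerivAt.sub_const c
    rw [grad_mul ((ct_contDiff _ _).differentiable (by simp) z) hg.differentiableAt, hg.gradient]
    refine (norm_add_le _ _).trans ?_
    rw [norm_smul, norm_smul, Real.norm_of_nonneg (ct_nonneg _ _ _)]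
    have h4 := mul_le_mul (hac z hz1) (hct y _ h3 z) (norm_nonneg _) (by positivity)
    have h5 : 9 * (δ * ‖a‖) * (C1 / (3 * δ)) = 3 * C1 * ‖a‖ := by
      field_simp
      ring
    have h6 := mul_le_of_le_one_left (norm_nonneg a) (ct_le_one y (3 * δ) z)
    rw [Real.norm_eq_abs]
    linarith
  have hχW := W11.of_lip hχ hχc
  have hP := W11.of_cut hχW.weak hms (compact_of_zero hm0)
  have hF := hk.add hP
  set N := ∫ z, ‖gradient χ z‖ with hNdef
  have hJ := slab_at hd hχ hχc hχ0 y (show 0 < 6 * δ by positivity)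
  set J := ∫ z in closedBall y (6 * δ), χ z with hJdef
  have q1 : ∫ z, ‖m z • gradient χ z + χ z • gradient m z‖ ≤
      9 * (δ * ‖a‖) * N + (1 + 3 * C1) * ‖a‖ * J := by
    rw [hNdef, hJdef, ← integral_const_mul, ← integral_const_mul,
      ← integral_indicator measurableSet_closedBall]
    refine int_le_add hP.gint.norm (hχW.gint.norm.const_mul _)
      ((hχW.int.const_mul _).indicator measurableSet_closedBall) fun z => ?_
    refine (norm_add_le _ _).trans (add_le_add ?_ ?_)
    · rw [norm_smul]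
      exact mul_le_mul_of_nonneg_right (hm1 z) (norm_nonneg _)
    · by_cases hz1 : z ∈ closedBall y (6 * δ)
      · rw [indicator_of_mem hz1, norm_smul, Real.norm_of_nonneg (hχ0 z), mul_comm]
        exact mul_le_mul_of_nonneg_right (hm2 z hz1) (hχ0 z)
      · rw [indicator_of_notMem hz1, grad_zero_of hm0 (not_le.1 hz1), smul_zero, norm_zero]
  have q2 := int_le_add hF.gint.norm hk.gint.norm hP.gint.norm fun z => norm_add_le _ _
  obtain ⟨i1, i2⟩ := hC.real zero_le_one hF hδ n
  obtain ⟨i3, -⟩ := hC.real zero_le_one h hδ n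
  set F : E d → ℝ := fun z => k z + m z * χ z with hFdef
  have hFe : ∀ z ∈ closedBall y (3 * δ), F z = f z - c - (aff y b a z - c) * (1 - χ z) := by
    intro z hz1
    simp only [hFdef, m, hk1 z hz1, ct_one h3 hz1]
    ring
  have hFle : ∀ z ∈ closedBall y (3 * δ), F z ≤ f z - c := by
    intro z hz1
    have h4 := (abs_le.1 ((haf z).trans (mul_le_mul_of_nonneg_left (mem_closedBall.1 hz1)
      (norm_nonneg a)))).1
    rw [hFe z hz1]
    exact sub_le_self _ (mul_nonneg (by linarith) (by linarith [hχ1 z]))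
  have hav : ∀ (w : E d) (r : ℝ), 0 < r → av (fun z => f z - c) w r = av f w r - c := by
    intro w r hr
    rw [av_sub h.int.integrableOn (integrableOn_const measure_closedBall_lt_top.ne),
      av_const _ _ hr]
  obtain ⟨L1, hL1⟩ := mx_lip h zero_le_one hη hR
  obtain ⟨L2, hL2⟩ := mx_lip hF zero_le_one hη hR
  have hset := (measurableSet_TT zero_le_one h hδ n).inter (measurableSet_ball (x := y) (ε := δ))
  have hfin : volume (TT 1 f δ n ∩ ball y δ) ≠ ⊤ :=
    ((measure_mono inter_subset_right).trans_lt measure_ball_lt_top).ne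
  have q3 : ∫ x in TT 1 f δ n ∩ ball y δ, ‖gradient (mx 1 f (lo δ n) δ) x - a‖ ≤
      (∫ x in TT 1 f δ n ∩ ball y δ, ‖gradient (mx 1 F (lo δ n) δ) x‖) +
        ‖a‖ * ∫ x in TT 1 f δ n ∩ ball y δ, χ x := by
    rw [← integral_const_mul, ← integral_add i1.norm.integrableOn
      (hχW.int.const_mul _).integrableOn]
    refine integral_mono_ae (isub i3.integrableOn (integrableOn_const hfin)).norm
      (iadd i1.norm (hχW.int.const_mul _)).integrableOn ((ae_restrict_iff' hset).2 ?_)
    filter_upwards [hL1.ae_differentiableAt (μ := volume), hL2.ae_differentiableAt (μ := volume)]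
      with x d1 d2 hx
    obtain ⟨p, hp, hp1⟩ := mx_attained h.int zero_le_one hη hR x
    have hr : 0 < p.2 := hη.trans_le hp.1
    have h4 := hone x hx p hp hp1.ge
    have h5 : gradient (fun z => mx 1 f (lo δ n) δ z - c) x = gradient (mx 1 F (lo δ n) δ) x := by
      refine grad_eq_of_le ?_ ?_ (d1.sub_const c) d2
      · filter_upwards [isOpen_ball.mem_nhds hx.2] with z hz1
        obtain ⟨q, hq, hq1⟩ := mx_attained hF.int zero_le_one hη hR z
        have h6 := av_mono hF.int.integrableOn (isub h.int.integrableOn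
          (integrableOn_const measure_closedBall_lt_top.ne))
          fun w hw => hFle w (KK_sub le_rfl hη hz1 hq hw)
        rw [hav _ _ (hη.trans_le hq.1)] at h6
        linarith [av_le_mx h.int zero_le_one hη z hq]
      · have h6 : av F (x + p.1) p.2 = av (fun z => f z - c) (x + p.1) p.2 :=
          av_congr fun w hw => by
            rw [hFe w (KK_sub le_rfl hη hx.2 hp hw), h4 w hw, sub_self, mul_zero, sub_zero]
        rw [hav _ _ hr] at h6
        linarith [av_le_mx hF.int zero_le_one hη x hp]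
    have h7 : gradient (fun z => mx 1 f (lo δ n) δ z - c) x = gradient (mx 1 f (lo δ n) δ) x := by
      unfold gradient
      rw [fderiv_sub_const]
    have h8 : χ x = 1 := h4 x (by
      rw [mem_closedBall, dist_self_add_right]
      simpa using hp.2.2)
    simp only [h8, mul_one, ← h5, h7]
    exact norm_sub_le _ _
  have q4 := setIntegral_le_integral (s := TT 1 f δ n ∩ ball y δ) i1.norm
    (ae_of_all _ fun _ => norm_nonneg _)
  have q5 : ∫ x in TT 1 f δ n ∩ ball y δ, χ x ≤ J :=
    setIntegral_mono_set hχW.int.integrableOn (ae_of_all _ hχ0) (LE.le.eventuallyLE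
      (inter_subset_right.trans (ball_subset_closedBall.trans
        (closedBall_subset_closedBall (by linarith)))))
  have q6 : ‖a‖ * J ≤ 12 * (C2 * lam f g δ y b a) := by
    have := mul_le_mul_of_nonneg_left hJ (norm_nonneg a)
    linarith
  have q7 := mul_le_mul_of_nonneg_left q5 (norm_nonneg a)
  have q8 := mul_le_mul_of_nonneg_left q6 (show 0 ≤ 1 + 3 * C1 by positivity)
  have q9 : ∫ z, ‖Γ z + (m z • gradient χ z + χ z • gradient m z)‖ ≤
      (C0 + 9 * C2 + (1 + 3 * C1) * 12 * C2) * lam f g δ y b a := by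
    linarith
  have q10 := mul_le_mul_of_nonneg_left q9 hC'
  linarith

end Vale.Agent.N137
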