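import Vale.Agent.P137.Bdl.B1
import Mathlib.Data.Real.Sign
import Mathlib.MeasureTheory.Constructions.Polish.Basic

/-!
# Calculus of weak gradients: sums, limits, chain rule, level sets, translations
-/

open MeasureTheory Set Filter Topology Metric
open scoped ENNReal NNReal ContDiff

namespace Vale.Agent.N137

open Vale.Agent.P137 Vale.Agent.P137.U

variable {d : ℕ}

/-- `f ∈ W^{1,1}` with weak gradient `g`. -/
structure W11 (f : E d → ℝ) (g : E d → E d) : Prop where
  int : Integrable f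
  gint : Integrable g
  weak : IsWeakGradient f g

theorem isub {α F : Type*} [MeasurableSpace α] {μ : Measure α} [NormedAddCommGroup F]
    {f g : α → F} (hf : Integrable f μ) (hg : Integrable g μ) :
    Integrable (fun x => f x - g x) μ := hf.sub hg

theorem iadd {α F : Type*} [MeasurableSpace α] {μ : Measure α} [NormedAddCommGroup F]
    {f g : α → F} (hf : Integrable f μ) (hg : Integrable g μ) :
    Integrable (fun x => f x + g x) μ := hf.add hg

theorem int_le_add {α : Type*} [MeasurableSpace α] {μ : Measure α} {a b c : α → ℝ}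
    (ha : Integrable a μ) (hb : Integrable b μ) (hc : Integrable c μ)
    (h : ∀ x, a x ≤ b x + c x) : ∫ x, a x ∂μ ≤ (∫ x, b x ∂μ) + ∫ x, c x ∂μ := by
  rw [← integral_add hb hc]
  exact integral_mono ha (hb.add hc) h

theorem norm_grad (u : E d → ℝ) (x : E d) : ‖gradient u x‖ = ‖fderiv ℝ u x‖ :=
  LinearIsometryEquiv.norm_map _ _

theorem test_cont {φ : E d → ℝ} (hφ : ContDiff ℝ ∞ φ) (v : E d) :
    Continuous fun x => fderiv ℝ φ x v :=
  (hφ.continuous_fderiv (by simp)).clm_apply continuous_const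

theorem int_test1 {f φ : E d → ℝ} (hf : LocallyIntegrable f) (hφ : ContDiff ℝ ∞ φ)
    (hc : HasCompactSupport φ) (v : E d) : Integrable fun x => f x * fderiv ℝ φ x v :=
  hf.integrable_smul_right_of_hasCompactSupport (test_cont hφ v) (hc.fderiv_apply ℝ v)

theorem loc_coord {g : E d → E d} (hg : LocallyIntegrable g) (i : Fin d) :
    LocallyIntegrable fun x => g x i := by
  rw [locallyIntegrable_iff] at hg ⊢
  intro K hK
  exact (EuclideanSpace.proj (𝕜 := ℝ) i).integrable_comp (hg K hK)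

theorem int_test2 {g : E d → E d} {φ : E d → ℝ} (hg : LocallyIntegrable g)
    (hφ : ContDiff ℝ ∞ φ) (hc : HasCompactSupport φ) (i : Fin d) :
    Integrable fun x => g x i * φ x :=
  (loc_coord hg i).integrable_smul_right_of_hasCompactSupport hφ.continuous hc

theorem weak_add {f₁ f₂ : E d → ℝ} {g₁ g₂ : E d → E d} (h₁ : IsWeakGradient f₁ g₁)
    (h₂ : IsWeakGradient f₂ g₂) :
    IsWeakGradient (fun x => f₁ x + f₂ x) (fun x => g₁ x + g₂ x) := by
  refine ⟨h₁.1.add h₂.1, h₁.2.1.add h₂.2.1, fun φ hφ hc i => ?_⟩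
  have e1 := h₁.2.2 φ hφ hc i
  have e2 := h₂.2.2 φ hφ hc i
  simp only [add_mul, PiLp.add_apply]
  rw [integral_add (int_test1 h₁.1 hφ hc _) (int_test1 h₂.1 hφ hc _),
    integral_add (int_test2 h₁.2.1 hφ hc _) (int_test2 h₂.2.1 hφ hc _), e1, e2]
  ring

theorem weak_neg {f : E d → ℝ} {g : E d → E d} (h : IsWeakGradient f g) :
    IsWeakGradient (fun x => -f x) (fun x => -g x) := by
  refine ⟨h.1.neg, h.2.1.neg, fun φ hφ hc i => ?_⟩
  have e1 := h.2.2 φ hφ hc i
  simp only [neg_mul, PiLp.neg_apply, integral_neg]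
  rw [e1]

theorem weak_sub {f₁ f₂ : E d → ℝ} {g₁ g₂ : E d → E d} (h₁ : IsWeakGradient f₁ g₁)
    (h₂ : IsWeakGradient f₂ g₂) :
    IsWeakGradient (fun x => f₁ x - f₂ x) (fun x => g₁ x - g₂ x) := by
  simpa only [sub_eq_add_neg] using weak_add h₁ (weak_neg h₂)

theorem W11.add {f₁ f₂ : E d → ℝ} {g₁ g₂ : E d → E d} (h₁ : W11 f₁ g₁) (h₂ : W11 f₂ g₂) :
    W11 (fun x => f₁ x + f₂ x) (fun x => g₁ x + g₂ x) :=
  ⟨h₁.int.add h₂.int, h₁.gint.add h₂.gint, weak_add h₁.weak h₂.weak⟩

theorem W11.sub {f₁ f₂ : E d → ℝ} {g₁ g₂ : E d → E d} (h₁ : W11 f₁ g₁) (h₂ : W11 f₂ g₂) :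
    W11 (fun x => f₁ x - f₂ x) (fun x => g₁ x - g₂ x) :=
  ⟨h₁.int.sub h₂.int, h₁.gint.sub h₂.gint, weak_sub h₁.weak h₂.weak⟩

theorem measurable_grad (u : E d → ℝ) : Measurable (gradient u) :=
  (InnerProductSpace.toDual ℝ (E d)).symm.continuous.measurable.comp (measurable_fderiv ℝ u)

theorem grad_le_lip {u : E d → ℝ} {L : ℝ≥0} (hu : LipschitzWith L u) (x : E d) :
    ‖gradient u x‖ ≤ L := by
  rw [norm_grad]
  exact norm_fderiv_le_of_lipschitz ℝ hu

/-- The gradient of a Lipschitz function is its weak gradient. -/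
theorem weak_lip {u : E d → ℝ} {L : ℝ≥0} (hu : LipschitzWith L u) :
    IsWeakGradient u (gradient u) := by
  refine ⟨hu.continuous.locallyIntegrable, ?_, fun φ hφ hc i => ?_⟩
  · exact (locallyIntegrable_const (L : ℝ)).mono (measurable_grad u).aestronglyMeasurable
      (ae_of_all _ fun x => (grad_le_lip hu x).trans (le_abs_self _))
  obtain ⟨Lφ, hLφ⟩ : ∃ L, LipschitzWith L φ :=
    ContDiff.lipschitzWith_of_hasCompactSupport hc hφ (by simp)
  have h1 := hu.integral_lineDeriv_mul_eq (μ := volume) hLφ hc (EuclideanSpace.single i 1)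
  have h2 : ∫ x, lineDeriv ℝ u x (EuclideanSpace.single i 1) * φ x
      = ∫ x, gradient u x i * φ x := by
    refine integral_congr_ae ?_
    filter_upwards [hu.ae_differentiableAt (μ := volume)] with x hx
    rw [hx.lineDeriv_eq_fderiv, gradient_apply]
  have h3 : ∫ x, lineDeriv ℝ φ x (-EuclideanSpace.single i 1) * u x
      = -∫ x, u x * fderiv ℝ φ x (EuclideanSpace.single i 1) := by
    rw [← integral_neg]
    refine integral_congr_ae (ae_of_all _ fun x => ?_)
    simp only
    rw [((hφ.differentiable (by simp)) x).lineDeriv_eq_fderiv, map_neg]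
    ring
  rw [h2, h3] at h1
  linarith only [h1]

theorem W11.of_lip {u : E d → ℝ} {L : ℝ≥0} (hu : LipschitzWith L u) (hc : HasCompactSupport u) :
    W11 u (gradient u) := by
  refine ⟨hu.continuous.integrable_of_hasCompactSupport hc, ?_, weak_lip hu⟩
  have h4 : HasCompactSupport (gradient u) := by
    have h5 : gradient u = (InnerProductSpace.toDual ℝ (E d)).symm ∘ fderiv ℝ u := rfl
    rw [h5]
    exact (hc.fderiv ℝ).comp_left (map_zero _)
  exact (integrableOn_iff_integrable_of_support_subset (subset_tsupport _)).1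
    ((weak_lip hu).2.1.integrableOn_isCompact h4)

theorem tendsto_test {F : ℕ → E d → ℝ} {F0 ψ : E d → ℝ} (hF : ∀ n, Integrable (F n))
    (hF0 : Integrable F0) (hψ : Continuous ψ) (hc : HasCompactSupport ψ)
    (h : Tendsto (fun n => ∫ x, ‖F n x - F0 x‖) atTop (𝓝 0)) :
    Tendsto (fun n => ∫ x, F n x * ψ x) atTop (𝓝 (∫ x, F0 x * ψ x)) := by
  obtain ⟨C, hC⟩ := hc.exists_bound_of_continuous hψ
  have hb : ∀ w : E d → ℝ, Integrable w → Integrable fun x => w x * ψ x := fun w hw =>
    hw.mul_bdd (c := C) hψ.aestronglyMeasurable (ae_of_all _ hC)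
  rw [tendsto_iff_norm_sub_tendsto_zero]
  have h2 := h.const_mul C
  rw [mul_zero] at h2
  refine squeeze_zero (fun _ => norm_nonneg _) (fun n => ?_) h2
  rw [← integral_sub (hb _ (hF n)) (hb _ hF0), ← integral_const_mul]
  refine norm_integral_le_of_norm_le (((hF n).sub hF0).norm.const_mul C) (ae_of_all _ fun x => ?_)
  rw [← sub_mul, norm_mul, mul_comm]
  exact mul_le_mul_of_nonneg_right (hC x) (norm_nonneg _)

/-- `W^{1,1}` is closed under limits. -/
theorem W11.of_tendsto {u : ℕ → E d → ℝ} {w : ℕ → E d → E d} {f : E d → ℝ} {g : E d → E d}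
    (h : ∀ n, W11 (u n) (w n)) (hf : Integrable f) (hg : Integrable g)
    (h1 : Tendsto (fun n => ∫ x, ‖u n x - f x‖) atTop (𝓝 0))
    (h2 : Tendsto (fun n => ∫ x, ‖w n x - g x‖) atTop (𝓝 0)) : W11 f g := by
  refine ⟨hf, hg, hf.locallyIntegrable, hg.locallyIntegrable, fun φ hφ hc i => ?_⟩
  have t1 := tendsto_test (fun n => (h n).int) hf (test_cont hφ (EuclideanSpace.single i 1))
    (hc.fderiv_apply ℝ _) h1
  have hi : ∀ w : E d → E d, Integrable w → Integrable fun x => w x i := fun w hw =>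
    (EuclideanSpace.proj (𝕜 := ℝ) i).integrable_comp hw
  have h3 : Tendsto (fun n => ∫ x, ‖w n x i - g x i‖) atTop (𝓝 0) := by
    refine squeeze_zero (fun _ => integral_nonneg fun _ => norm_nonneg _) (fun n => ?_) h2
    refine integral_mono ((hi _ (h n).gint).sub (hi _ hg)).norm ((h n).gint.sub hg).norm
      fun x => ?_
    exact PiLp.norm_apply_le (w n x - g x) i
  have t2 := (tendsto_test (fun n => hi _ (h n).gint) (hi _ hg) hφ.continuous hc h3).neg
  exact tendsto_nhds_unique t1 (t2.congr fun n => ((h n).weak.2.2 φ hφ hc i).symm)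

theorem ae_tendsto_of_tsum {α : Type*} [MeasurableSpace α] {μ : Measure α} {u : ℕ → α → ℝ≥0∞}
    (hu : ∀ n, AEMeasurable (u n) μ) (h : ∑' n, ∫⁻ x, u n x ∂μ ≠ ⊤) :
    ∀ᵐ x ∂μ, Tendsto (fun n => u n x) atTop (𝓝 0) := by
  rw [← lintegral_tsum hu] at h
  filter_upwards [ae_lt_top' (AEMeasurable.tsum hu) h] with x hx
  exact ENNReal.tendsto_atTop_zero_of_tsum_ne_top hx.ne

theorem tsum_geo_ne_top (c : ℝ≥0∞) (hc : c ≠ ⊤) :
    ∑' n : ℕ, c * ENNReal.ofReal ((2⁻¹ : ℝ) ^ n) ≠ ⊤ := by
  rw [ENNReal.tsum_mul_left, ← ENNReal.ofReal_tsum_of_nonneg (fun _ => by positivity)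
    (summable_geometric_of_lt_one (by norm_num) (by norm_num))]
  exact ENNReal.mul_ne_top hc ENNReal.ofReal_ne_top

theorem tendsto_geo : Tendsto (fun n : ℕ => (2⁻¹ : ℝ) ^ n) atTop (𝓝 0) :=
  tendsto_pow_atTop_nhds_zero_of_lt_one (by norm_num) (by norm_num)

/-- Fast `L^1` convergence gives convergence almost everywhere. -/
theorem ae_tendsto_of_fast {F : Type*} [NormedAddCommGroup F] {u : ℕ → E d → F} {f : E d → F}
    (hu : ∀ n, Integrable (u n)) (hf : Integrable f)
    (h : ∀ n, ∫ x, ‖u n x - f x‖ ≤ (2⁻¹ : ℝ) ^ n) :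
    ∀ᵐ x, Tendsto (fun n => u n x) atTop (𝓝 (f x)) := by
  have h1 := ae_tendsto_of_tsum (μ := volume) (u := fun n x => ‖u n x - f x‖ₑ)
    (fun n => ((hu n).sub hf).aestronglyMeasurable.enorm) (by
      refine ne_top_of_le_ne_top (tsum_geo_ne_top 1 ENNReal.one_ne_top)
        (ENNReal.tsum_le_tsum fun n => ?_)
      rw [one_mul, ← ofReal_integral_norm_eq_lintegral_enorm (isub (hu n) hf)]
      exact ENNReal.ofReal_le_ofReal (h n))
  filter_upwards [h1] with x hx
  rw [tendsto_iff_norm_sub_tendsto_zero]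
  have h2 := (ENNReal.tendsto_toReal ENNReal.zero_ne_top).comp hx
  simpa [Function.comp_def] using h2

/-- Fast smooth approximation. -/
theorem W11.exists_seq {f : E d → ℝ} {g : E d → E d} (h : W11 f g) :
    ∃ φ : ℕ → E d → ℝ, (∀ n, ContDiff ℝ ∞ (φ n)) ∧ (∀ n, HasCompactSupport (φ n)) ∧
      (∀ n, ∫ x, ‖φ n x - f x‖ ≤ (2⁻¹ : ℝ) ^ n) ∧
      ∀ n, ∫ x, ‖gradient (φ n) x - g x‖ ≤ (2⁻¹ : ℝ) ^ n := by
  have hdens : ∀ n : ℕ, ∃ φ : E d → ℝ, ContDiff ℝ ∞ φ ∧ HasCompactSupport φ ∧
      ∫ x, ‖f x - φ x‖ ≤ 2⁻¹ ^ n ∧ ∫ x, ‖g x - gradient φ x‖ ≤ 2⁻¹ ^ n :=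
    fun n => density h.int h.gint h.weak (by positivity)
  choose φ h1 h2 h3 h4 using hdens
  refine ⟨φ, h1, h2, fun n => ?_, fun n => ?_⟩
  · simpa only [norm_sub_rev (φ n _)] using h3 n
  · simpa only [norm_sub_rev (gradient (φ n) _)] using h4 n

theorem W11.of_smooth {φ : E d → ℝ} (h1 : ContDiff ℝ ∞ φ) (h2 : HasCompactSupport φ) :
    W11 φ (gradient φ) := by
  obtain ⟨L, hL⟩ : ∃ L, LipschitzWith L φ :=
    ContDiff.lipschitzWith_of_hasCompactSupport h2 h1 (by simp)
  exact W11.of_lip hL h2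

theorem tendsto_L1_of_dom {F : Type*} [NormedAddCommGroup F] {u : ℕ → E d → F} {f : E d → F}
    {b : E d → ℝ} (hu : ∀ n, AEStronglyMeasurable (u n) volume)
    (hf : AEStronglyMeasurable f volume) (hb : Integrable b)
    (hle : ∀ n, ∀ᵐ x, ‖u n x - f x‖ ≤ b x)
    (hlim : ∀ᵐ x, Tendsto (fun n => u n x) atTop (𝓝 (f x))) :
    Tendsto (fun n => ∫ x, ‖u n x - f x‖) atTop (𝓝 0) := by
  have h := tendsto_integral_of_dominated_convergence (μ := volume)
    (F := fun n x => ‖u n x - f x‖) (f := fun _ => (0 : ℝ)) b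
    (fun n => ((hu n).sub hf).norm) hb
    (fun n => by
      filter_upwards [hle n] with x hx
      rwa [norm_norm])
    (by
      filter_upwards [hlim] with x hx
      exact tendsto_iff_norm_sub_tendsto_zero.1 hx)
  simpa using h

theorem grad_comp {β : ℝ → ℝ} {u : E d → ℝ} {x : E d} (hβ : DifferentiableAt ℝ β (u x))
    (hu : DifferentiableAt ℝ u x) :
    gradient (fun z => β (u z)) x = deriv β (u x) • gradient u x := by
  have h := (hβ.hasDerivAt.comp_hasFDerivAt x hu.hasFDerivAt).fderiv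
  unfold gradient
  rw [← map_smul]
  exact congrArg _ h

/-- Chain rule. -/
theorem W11.comp {f : E d → ℝ} {g : E d → E d} (h : W11 f g) {β : ℝ → ℝ} (hβ : ContDiff ℝ 1 β)
    (h0 : β 0 = 0) (h1 : ∀ t, |deriv β t| ≤ 1) :
    W11 (fun x => β (f x)) (fun x => deriv β (f x) • g x) := by
  obtain ⟨φ, s1, s2, s3, s4⟩ := h.exists_seq
  have hd : Differentiable ℝ β := hβ.differentiable one_ne_zero
  have hdc : Continuous (deriv β) := hβ.continuous_deriv le_rfl
  have hlip : LipschitzWith 1 β := lipschitzWith_of_nnnorm_deriv_le hd fun t => by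
    have := h1 t
    rw [← NNReal.coe_le_coe]
    simpa using this
  have hab : ∀ a b, ‖β a - β b‖ ≤ ‖a - b‖ := fun a b => by
    simpa [dist_eq_norm] using hlip.dist_le_mul a b
  have hW : ∀ n, W11 (φ n) (gradient (φ n)) := fun n => W11.of_smooth (s1 n) (s2 n)
  have hn : ∀ n, W11 (fun x => β (φ n x)) (fun x => deriv β (φ n x) • gradient (φ n) x) := by
    intro n
    obtain ⟨L, hL⟩ : ∃ L, LipschitzWith L (φ n) :=
      ContDiff.lipschitzWith_of_hasCompactSupport (s2 n) (s1 n) (by simp)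
    have h2 := W11.of_lip (hlip.comp hL) ((s2 n).comp_left h0)
    have h3 : gradient (β ∘ φ n) = fun x => deriv β (φ n x) • gradient (φ n) x :=
      funext fun x => grad_comp (hd _) ((s1 n).differentiable (by simp) x)
    rwa [h3] at h2
  have hfm : AEStronglyMeasurable (fun x => β (f x)) volume :=
    hβ.continuous.comp_aestronglyMeasurable h.int.1
  have hdm : AEStronglyMeasurable (fun x => deriv β (f x)) volume :=
    hdc.comp_aestronglyMeasurable h.int.1
  have hfi : Integrable fun x => β (f x) := h.int.mono hfm (ae_of_all _ fun x => by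
    simpa [h0] using hab (f x) 0)
  have hsm : ∀ (t : ℝ) (v : E d), ‖deriv β t • v‖ ≤ ‖v‖ := fun t v => by
    rw [norm_smul]
    exact mul_le_of_le_one_left (norm_nonneg _) (h1 t)
  have hgi : Integrable fun x => deriv β (f x) • g x :=
    h.gint.mono (hdm.smul h.gint.1) (ae_of_all _ fun x => hsm _ _)
  refine W11.of_tendsto hn hfi hgi ?_ ?_
  · refine squeeze_zero (fun _ => integral_nonneg fun _ => norm_nonneg _) (fun n => ?_) tendsto_geo
    exact (integral_mono ((hn n).int.sub hfi).norm ((hW n).int.sub h.int).norm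
      fun x => hab _ _).trans (s3 n)
  · have hae := ae_tendsto_of_fast (fun n => (hW n).int) h.int s3
    have hm : ∀ n, AEStronglyMeasurable (fun x => deriv β (φ n x) • g x) volume := fun n =>
      (hdc.comp (s1 n).continuous).aestronglyMeasurable.smul h.gint.1
    have t2 := tendsto_L1_of_dom hm hgi.1 (h.gint.norm.add h.gint.norm)
      (fun n => ae_of_all _ fun x => (norm_sub_le _ _).trans (add_le_add (hsm _ _) (hsm _ _)))
      (by
        filter_upwards [hae] with x hx
        exact ((hdc.tendsto _).comp hx).smul_const (g x))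
    have t3 := tendsto_geo.add t2
    rw [add_zero] at t3
    refine squeeze_zero (fun _ => integral_nonneg fun _ => norm_nonneg _) (fun n => ?_) t3
    have hi : Integrable fun x => deriv β (φ n x) • g x :=
      h.gint.mono (hm n) (ae_of_all _ fun x => hsm _ _)
    refine le_trans ?_ (add_le_add (s4 n) le_rfl)
    refine int_le_add (isub (hn n).gint hgi).norm (isub (hW n).gint h.gint).norm
      (isub hi hgi).norm fun x => ?_
    have e : deriv β (φ n x) • gradient (φ n) x - deriv β (f x) • g x =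
        deriv β (φ n x) • (gradient (φ n) x - g x) +
          (deriv β (φ n x) • g x - deriv β (f x) • g x) := by
      rw [smul_sub]
      abel
    rw [e]
    exact (norm_add_le _ _).trans (add_le_add (hsm _ _) le_rfl)

theorem tendsto_inv_succ : Tendsto (fun n : ℕ => ((n : ℝ) + 1)⁻¹) atTop (𝓝 0) :=
  tendsto_inv_atTop_zero.comp (tendsto_atTop_add_const_right _ 1 tendsto_natCast_atTop_atTop)

/-- The weak gradient vanishes almost everywhere on the zero set. -/
theorem W11.zero_set {f : E d → ℝ} {g : E d → E d} (h : W11 f g) :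
    ∀ᵐ x, f x = 0 → g x = 0 := by
  classical
  let β : ℕ → ℝ → ℝ := fun n t => ((n : ℝ) + 1)⁻¹ * Real.arctan (((n : ℝ) + 1) * t)
  have hpos : ∀ n : ℕ, (0 : ℝ) < n + 1 := fun n => by positivity
  have hder : ∀ n t, deriv (β n) t = 1 / (1 + (((n : ℝ) + 1) * t) ^ 2) := by
    intro n t
    have h1 := (((hasDerivAt_id t).const_mul ((n : ℝ) + 1)).arctan).const_mul ((n : ℝ) + 1)⁻¹
    have h2 := h1.deriv
    simp only [id, mul_one] at h2
    rw [show deriv (β n) t = _ from h2]
    have := hpos n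
    field_simp
  have hle : ∀ n t, |deriv (β n) t| ≤ 1 := by
    intro n t
    rw [hder, abs_of_nonneg (by positivity), div_le_one (by positivity)]
    nlinarith [sq_nonneg (((n : ℝ) + 1) * t)]
  have hβ : ∀ n, ContDiff ℝ 1 (β n) := fun n =>
    contDiff_const.mul (Real.contDiff_arctan.comp (contDiff_const.mul contDiff_id))
  have h0 : ∀ n, β n 0 = 0 := fun n => by simp [β]
  have hn := fun n => h.comp (hβ n) (h0 n) (hle n)
  let g0 : E d → E d := fun x => if f x = 0 then g x else 0
  have hlimg : ∀ x, Tendsto (fun n => deriv (β n) (f x) • g x) atTop (𝓝 (g0 x)) := by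
    intro x
    by_cases hx : f x = 0
    · simp [g0, hx, hder]
    · simp only [g0, if_neg hx, hder]
      rw [← zero_smul ℝ (g x)]
      refine Tendsto.smul_const ?_ _
      simp only [one_div]
      refine tendsto_inv_atTop_zero.comp (tendsto_atTop_add_const_left _ 1 ?_)
      simp only [mul_pow]
      refine Tendsto.atTop_mul_const (by positivity) ?_
      exact (tendsto_pow_atTop two_ne_zero).comp
        (tendsto_atTop_add_const_right _ 1 tendsto_natCast_atTop_atTop)
  have hg0m : AEStronglyMeasurable g0 volume :=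
    aestronglyMeasurable_of_tendsto_ae atTop (fun n => (hn n).gint.1) (ae_of_all _ hlimg)
  have hg0le : ∀ x, ‖g0 x‖ ≤ ‖g x‖ := fun x => by
    by_cases hx : f x = 0 <;> simp [g0, hx]
  have hg0 : Integrable g0 := h.gint.mono hg0m (ae_of_all _ hg0le)
  have hsm : ∀ n (t : ℝ) (v : E d), ‖deriv (β n) t • v‖ ≤ ‖v‖ := fun n t v => by
    rw [norm_smul]
    exact mul_le_of_le_one_left (norm_nonneg _) (hle n t)
  have hW : W11 (fun _ => (0 : ℝ)) g0 := by
    refine W11.of_tendsto hn (integrable_zero _ _ _) hg0 ?_ ?_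
    · refine tendsto_L1_of_dom (fun n => (hn n).int.1) aestronglyMeasurable_const h.int.norm
        (fun n => ae_of_all _ fun x => ?_) (ae_of_all _ fun x => ?_)
      · have hlip : LipschitzWith 1 (β n) := lipschitzWith_of_nnnorm_deriv_le
          ((hβ n).differentiable one_ne_zero) fun t => by
            have := hle n t
            rw [← NNReal.coe_le_coe]
            simpa using this
        simpa [dist_eq_norm, h0] using hlip.dist_le_mul (f x) 0
      · have h2 := tendsto_inv_succ.mul_const (Real.pi / 2)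
        rw [zero_mul] at h2
        refine squeeze_zero_norm (fun n => ?_) h2
        rw [norm_mul, Real.norm_of_nonneg (inv_nonneg.2 (hpos n).le)]
        refine mul_le_mul_of_nonneg_left ?_ (inv_nonneg.2 (hpos n).le)
        exact abs_le.2 ⟨(Real.neg_pi_div_two_lt_arctan _).le, (Real.arctan_lt_pi_div_two _).le⟩
    · exact tendsto_L1_of_dom (fun n => (hn n).gint.1) hg0m (h.gint.norm.add h.gint.norm)
        (fun n => ae_of_all _ fun x => (norm_sub_le _ _).trans (add_le_add (hsm _ _ _) (hg0le x)))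
        (ae_of_all _ hlimg)
  have hz : IsWeakGradient (fun _ : E d => (0 : ℝ)) (fun _ => (0 : E d)) :=
    ⟨locallyIntegrable_const _, locallyIntegrable_const _, fun φ _ _ i => by simp⟩
  filter_upwards [fa_unique hW.weak hz] with x hx hfx
  simpa [g0, hfx] using hx

/-- Multiplication by a smooth function with compact support. -/
theorem W11.of_cut {u : E d → ℝ} {G : E d → E d} (h : IsWeakGradient u G) {χ : E d → ℝ}
    (hχ : ContDiff ℝ ∞ χ) (hc : HasCompactSupport χ) :
    W11 (fun x => χ x * u x) (fun x => χ x • G x + u x • gradient χ x) := by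
  refine ⟨h.1.integrable_smul_left_of_hasCompactSupport hχ.continuous hc, ?_, weak_mul h hχ⟩
  refine (h.2.1.integrable_smul_left_of_hasCompactSupport hχ.continuous hc).add ?_
  refine h.1.integrable_smul_right_of_hasCompactSupport
    ((InnerProductSpace.toDual ℝ (E d)).symm.continuous.comp (hχ.continuous_fderiv (by simp))) ?_
  have h5 : gradient χ = (InnerProductSpace.toDual ℝ (E d)).symm ∘ fderiv ℝ χ := rfl
  rw [h5]
  exact (hc.fderiv ℝ).comp_left (map_zero _)

/-- Weak gradients agree almost everywhere on the set where the functions agree. -/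
theorem weak_eq_set {u v : E d → ℝ} {G H : E d → E d} (hu : IsWeakGradient u G)
    (hv : IsWeakGradient v H) : ∀ᵐ x, u x = v x → G x = H x := by
  have h := weak_sub hu hv
  have h1 : ∀ n : ℕ, ∀ᵐ x, cut n x * (u x - v x) = 0 →
      cut n x • (G x - H x) + (u x - v x) • gradient (cut n) x = 0 := fun n =>
    (W11.of_cut h (cut_contDiff n) (cut_compact n)).zero_set
  filter_upwards [ae_all_iff.2 h1] with x hx hxy
  obtain ⟨n, hn⟩ := exists_nat_ge ‖x‖
  have h2 := hx n (by rw [hxy, sub_self, mul_zero])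
  rw [hxy, sub_self, zero_smul, add_zero, cut_eq_one (by linarith), one_smul] at h2
  exact sub_eq_zero.1 h2

theorem abs_sign_le (t : ℝ) : |Real.sign t| ≤ 1 := by
  rcases Real.sign_apply_eq t with h | h | h <;> simp [h]

theorem measurable_rsign : Measurable Real.sign := by
  unfold Real.sign
  exact Measurable.ite measurableSet_Iio measurable_const
    (Measurable.ite measurableSet_Ioi measurable_const measurable_const)

theorem norm_sign_smul (t : ℝ) (v : E d) : ‖Real.sign t • v‖ ≤ ‖v‖ := by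
  rw [norm_smul]
  exact mul_le_of_le_one_left (norm_nonneg _) (abs_sign_le t)

/-- The modulus of a function in `W^{1,1}`. -/
theorem W11.abs {f : E d → ℝ} {g : E d → E d} (h : W11 f g) :
    W11 (fun x => |f x|) (fun x => Real.sign (f x) • g x) := by
  let e : ℕ → ℝ := fun n => ((n : ℝ) + 1)⁻¹
  have he : ∀ n, 0 < e n := fun n => by positivity
  let β : ℕ → ℝ → ℝ := fun n t => √(t ^ 2 + e n ^ 2) - e n
  have hp : ∀ n (t : ℝ), 0 < t ^ 2 + e n ^ 2 := fun n t => by have := he n; positivity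
  have hder : ∀ n t, deriv (β n) t = t / √(t ^ 2 + e n ^ 2) := by
    intro n t
    have h1 := ((((hasDerivAt_id t).pow 2).add_const (e n ^ 2)).sqrt (hp n t).ne').sub_const (e n)
    have h2 := h1.deriv
    simp only [id] at h2
    refine Eq.trans h2 ?_
    have := Real.sqrt_pos.2 (hp n t)
    simp only [Pi.pow_apply, id]
    field_simp
    norm_num
  have hge : ∀ n (t : ℝ), |t| ≤ √(t ^ 2 + e n ^ 2) := fun n t =>
    Real.abs_le_sqrt (by nlinarith [sq_nonneg (e n)])
  have hle : ∀ n t, |deriv (β n) t| ≤ 1 := by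
    intro n t
    have := Real.sqrt_pos.2 (hp n t)
    rw [hder, abs_div, abs_of_pos this, div_le_one this]
    exact hge n t
  have hβ : ∀ n, ContDiff ℝ 1 (β n) := fun n =>
    (((contDiff_id.pow 2).add contDiff_const).sqrt fun t => (hp n t).ne').sub contDiff_const
  have h0 : ∀ n, β n 0 = 0 := fun n => by simp [β, Real.sqrt_sq (he n).le]
  have hn := fun n => h.comp (hβ n) (h0 n) (hle n)
  have hsq : ∀ t : ℝ, Tendsto (fun n => √(t ^ 2 + e n ^ 2)) atTop (𝓝 |t|) := by
    intro t
    have h1 := (((tendsto_inv_succ.pow 2).const_add (t ^ 2)).sqrt)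
    simpa [Real.sqrt_sq_eq_abs, e] using h1
  have hgm : AEStronglyMeasurable (fun x => Real.sign (f x) • g x) volume :=
    (measurable_rsign.comp_aemeasurable h.int.1.aemeasurable).aestronglyMeasurable.smul h.gint.1
  have hsm : ∀ n (t : ℝ) (v : E d), ‖deriv (β n) t • v‖ ≤ ‖v‖ := fun n t v => by
    rw [norm_smul]
    exact mul_le_of_le_one_left (norm_nonneg _) (hle n t)
  refine W11.of_tendsto hn h.int.abs (h.gint.mono hgm (ae_of_all _ fun x => norm_sign_smul _ _))
    ?_ ?_
  · refine tendsto_L1_of_dom (fun n => (hn n).int.1) h.int.abs.1 (h.int.norm.add h.int.norm)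
      (fun n => ae_of_all _ fun x => ?_) (ae_of_all _ fun x => ?_)
    · have hlip : LipschitzWith 1 (β n) := lipschitzWith_of_nnnorm_deriv_le
        ((hβ n).differentiable one_ne_zero) fun t => by
          have := hle n t
          rw [← NNReal.coe_le_coe]
          simpa using this
      refine (norm_sub_le _ _).trans (add_le_add ?_ (by simp))
      simpa [dist_eq_norm, h0] using hlip.dist_le_mul (f x) 0
    · simpa using (hsq (f x)).sub tendsto_inv_succ
  · refine tendsto_L1_of_dom (fun n => (hn n).gint.1) hgm (h.gint.norm.add h.gint.norm)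
      (fun n => ae_of_all _ fun x =>
        (norm_sub_le _ _).trans (add_le_add (hsm _ _ _) (norm_sign_smul _ _)))
      (ae_of_all _ fun x => Tendsto.smul_const ?_ _)
    simp only [hder]
    rcases lt_trichotomy (f x) 0 with hx | hx | hx
    · have h2 := (tendsto_const_nhds (x := f x)).div (hsq (f x)) (abs_ne_zero.2 hx.ne)
      rwa [Real.sign_of_neg hx, show (-1 : ℝ) = f x / |f x| by
        rw [abs_of_neg hx, div_neg, div_self hx.ne]]
    · simp [hx]
    · have h2 := (tendsto_const_nhds (x := f x)).div (hsq (f x)) (abs_ne_zero.2 hx.ne')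
      rwa [Real.sign_of_pos hx, show (1 : ℝ) = f x / |f x| by
        rw [abs_of_pos hx, div_self hx.ne']]

theorem translate_smooth {φ : E d → ℝ} (h1 : ContDiff ℝ ∞ φ) (h : E d) :
    ∫⁻ x, ‖φ (x + h) - φ x‖ₑ ≤ ‖h‖ₑ * ∫⁻ x, ‖gradient φ x‖ₑ := by
  have hd : Differentiable ℝ φ := h1.differentiable (by simp)
  have hc : Continuous (fderiv ℝ φ) := h1.continuous_fderiv (by simp)
  have key : ∀ x, ‖φ (x + h) - φ x‖ₑ ≤
      ∫⁻ t in Ioc (0 : ℝ) 1, ‖h‖ₑ * ‖fderiv ℝ φ (x + t • h)‖ₑ := by
    intro x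
    have hder : ∀ t ∈ uIcc (0 : ℝ) 1, HasDerivAt (fun t : ℝ => φ (x + t • h))
        (fderiv ℝ φ (x + t • h) h) t := by
      intro t _
      have h2 : HasDerivAt (fun t : ℝ => x + t • h) h t := by
        simpa using ((hasDerivAt_id t).smul_const h).const_add x
      exact (hd _).hasFDerivAt.comp_hasDerivAt t h2
    have hcont : Continuous fun t : ℝ => fderiv ℝ φ (x + t • h) h := by fun_prop
    have h3 := intervalIntegral.integral_eq_sub_of_hasDerivAt hder (hcont.intervalIntegrable _ _)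
    simp only [one_smul, zero_smul, add_zero] at h3
    rw [← h3, intervalIntegral.integral_of_le zero_le_one]
    refine (enorm_integral_le_lintegral_enorm _).trans (lintegral_mono fun t => ?_)
    simp only
    rw [mul_comm]
    exact (fderiv ℝ φ (x + t • h)).le_opENorm h
  refine (lintegral_mono key).trans ?_
  rw [lintegral_lintegral_swap (by
    refine Measurable.aemeasurable ?_
    refine Measurable.const_mul (Continuous.measurable ?_) _
    fun_prop)]
  have h4 : ∀ t : ℝ, ∫⁻ x, ‖h‖ₑ * ‖fderiv ℝ φ (x + t • h)‖ₑ =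
      ‖h‖ₑ * ∫⁻ x, ‖gradient φ x‖ₑ := by
    intro t
    rw [lintegral_const_mul' _ _ enorm_ne_top,
      lintegral_add_right_eq_self (fun x => ‖fderiv ℝ φ x‖ₑ) (t • h)]
    simp only [fa_enorm_gradient]
  simp [h4]

/-- The translation estimate. -/
theorem W11.translate {f : E d → ℝ} {g : E d → E d} (hW : W11 f g) (h : E d) :
    ∫ x, ‖f (x + h) - f x‖ ≤ ‖h‖ * ∫ x, ‖g x‖ := by
  obtain ⟨φ, s1, s2, s3, s4⟩ := hW.exists_seq
  have hφ : ∀ n, W11 (φ n) (gradient (φ n)) := fun n => W11.of_smooth (s1 n) (s2 n)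
  have hn : ∀ n, ∫ x, ‖f (x + h) - f x‖ ≤
      ‖h‖ * ((∫ x, ‖g x‖) + 2⁻¹ ^ n) + 2⁻¹ ^ n + 2⁻¹ ^ n := by
    intro n
    have i1 : Integrable fun x => φ n (x + h) - φ n x :=
      ((hφ n).int.comp_add_right h).sub (hφ n).int
    have i2 : Integrable fun x => φ n x - f x := (hφ n).int.sub hW.int
    have i3 : Integrable fun x => φ n (x + h) - f (x + h) := i2.comp_add_right h
    have a1 : ∫ x, ‖φ n (x + h) - φ n x‖ ≤ ‖h‖ * ∫ x, ‖gradient (φ n) x‖ := by
      have h1 := translate_smooth (s1 n) h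
      rw [← ofReal_integral_norm_eq_lintegral_enorm i1,
        ← ofReal_integral_norm_eq_lintegral_enorm (hφ n).gint, ← ofReal_norm,
        ← ENNReal.ofReal_mul (norm_nonneg _)] at h1
      exact (ENNReal.ofReal_le_ofReal_iff (mul_nonneg (norm_nonneg _)
        (integral_nonneg fun _ => norm_nonneg _))).1 h1
    have a2 : ∫ x, ‖gradient (φ n) x‖ ≤ (∫ x, ‖g x‖) + 2⁻¹ ^ n := by
      refine le_trans ?_ (add_le_add le_rfl (s4 n))
      exact int_le_add (hφ n).gint.norm hW.gint.norm (isub (hφ n).gint hW.gint).norm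
        fun x => norm_le_norm_add_norm_sub' _ _
    have a3 : ∫ x, ‖φ n (x + h) - f (x + h)‖ ≤ 2⁻¹ ^ n := by
      rw [integral_add_right_eq_self (fun x => ‖φ n x - f x‖) h]
      exact s3 n
    have a4 : ∫ x, ‖f (x + h) - f x‖ ≤ (∫ x, ‖φ n (x + h) - φ n x‖) +
        (∫ x, ‖φ n (x + h) - f (x + h)‖) + ∫ x, ‖φ n x - f x‖ := by
      rw [← integral_add i1.norm i3.norm]
      refine int_le_add (isub (hW.int.comp_add_right h) hW.int).norm
        (iadd i1.norm i3.norm) i2.norm fun x => ?_
      have e : f (x + h) - f x =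
          (φ n (x + h) - φ n x) - (φ n (x + h) - f (x + h)) + (φ n x - f x) := by ring
      rw [e]
      exact (norm_add_le _ _).trans (add_le_add (norm_sub_le _ _) le_rfl)
    have a5 := mul_le_mul_of_nonneg_left a2 (norm_nonneg h)
    linarith only [a1, a3, a4, a5, s3 n]
  have hl := (((tendsto_geo.const_add (∫ x, ‖g x‖)).const_mul ‖h‖).add tendsto_geo).add
    tendsto_geo
  simpa using ge_of_tendsto' hl hn

end Vale.Agent.N137
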